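import Crest.Agent.N325.Mt.Walk
import Crest.Agent.N325.Mt.Finish_Mg

/-!
# Row 325, M6 (helper4): one multi-root Edmonds search in time `O((n log n) + m)`
-/

set_option autoImplicit false
open Finset

namespace Crest.Agent.N325.Mt

variable {V : Finset ℕ} {E : ℕ → ℕ → Prop} {g : Gl}

/-- state of the search and the improving patch, once found -/
abbrev MS : Type := SA × Option (List (ℕ × ℕ))

/-- `u` becomes inner, its mate outer -/
def growR (m : Arr ℕ) (adj : Arr (List ℕ)) (s : SA) (v u : ℕ) (q : List (ℕ × ℕ)) : R MS :=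
  pushR adj (m.get u) q >>= fun q' =>
    pure (((s.1.set u 2).set (m.get u) 1, s.2.1.set (m.get u) (v, v),
      s.2.2.1.set (m.get u) (s.2.2.1.get (bsU s.2.2.2.2 v) + 1), q', s.2.2.2.2), none)

/-- an edge between outer vertices: blossom or augmentation -/
def meetR (m : Arr ℕ) (adj : Arr (List ℕ)) (fu : ℕ) (s : SA) (v u : ℕ) (q : List (ℕ × ℕ)) :
    R MS :=
  walkR m s fu (bsU s.2.2.2.2 v) (bsU s.2.2.2.2 u) >>= fun w =>
    if w.1 = w.2.2.1 then
      foldL (absR m adj (v, u) w.1) w.2.1 (s.1, s.2.1, s.2.2.1, q, s.2.2.2.2) >>= fun s1 =>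
        foldL (absR m adj (u, v) w.1) w.2.2.2 s1 >>= fun s2 => pure (s2, none)
    else segR m s.1 s.2.1 fu [(v, w.1), (u, w.2.2.1)] [(v, u)] >>= fun P => pure (s, some P)

def scanR (m : Arr ℕ) (adj : Arr (List ℕ)) (fu : ℕ) (s : SA) (v u : ℕ) (q : List (ℕ × ℕ)) :
    R MS :=
  if s.1.get u = 0 then growR m adj s v u q
  else if s.1.get u = 2 then pure ((s.1, s.2.1, s.2.2.1, q, s.2.2.2.2), none)
  else meetR m adj fu s v u q

def edStep (m : Arr ℕ) (adj : Arr (List ℕ)) (fu : ℕ) (x : MS) : R MS :=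
  List.casesOn (motive := fun _ => R MS) x.1.2.2.2.1 (pure x) fun e q =>
    scanR m adj fu x.1 e.1 e.2 q

def edCond (x : MS) : Bool :=
  Option.casesOn (motive := fun _ => Bool) x.2 (!x.1.2.2.2.1.isEmpty) fun _ => false

def initQ (m : Arr ℕ) (adj : Arr (List ℕ)) (v : ℕ) (q : List (ℕ × ℕ)) : R (List (ℕ × ℕ)) :=
  if m.get v = v then pushR adj v q else pure q

def initR (m : Arr ℕ) (adj : Arr (List ℕ)) (Vl : List ℕ) : R SA :=
  setAllP (fun v => if m.get v = v then 1 else 0) Vl (.cst 0) >>= fun lb =>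
    setAllP (fun v => v) Vl (.cst 0) >>= fun cl =>
      setAllP (fun v => [v]) Vl (.cst []) >>= fun me =>
        foldL (initQ m adj) Vl [] >>= fun q =>
          pure (lb, .cst (0, 0), .cst 0, q, cl, me, .cst 1, cl)

/-- the search with its final state -/
def searchS (adj : Arr (List ℕ)) (Vl : List ℕ) (fu : ℕ) (m : Arr ℕ) : R MS :=
  initR m adj Vl >>= fun s => whileF edCond (edStep m adj fu) fu (s, none)

/-- the search -/
def search (adj : Arr (List ℕ)) (Vl : List ℕ) (fu : ℕ) (m : Arr ℕ) :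
    R (Option (List (ℕ × ℕ))) :=
  searchS adj Vl fu m >>= fun x => pure x.2

/-- the weight of the vertices that are not yet outer -/
def wt (V : Finset ℕ) (adj : Arr (List ℕ)) (s : St) : ℕ :=
  ∑ z ∈ V, if s.out z then 0 else 5 * (adj.get z).length + 7

theorem wt_drop {adj : Arr (List ℕ)} {s s' : St} (h : ∀ z ∈ V, s.out z → s'.out z) {N : List ℕ}
    (nd : N.Nodup) (k : ∀ z ∈ N, z ∈ V ∧ ¬s.out z ∧ s'.out z) :
    wt V adj s' + (5 * (N.map fun z => (adj.get z).length).sum + 7 * N.length) ≤ wt V adj s := by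
  have e : 5 * (N.map fun z => (adj.get z).length).sum + 7 * N.length =
      ∑ z ∈ V, if z ∈ N then 5 * (adj.get z).length + 7 else 0 := by
    rw [← sum_filter, show V.filter (· ∈ N) = N.toFinset from by
      ext z; simpa using fun c => (k z c).1, sum_add_distrib, ← mul_sum,
      List.sum_toFinset _ nd, sum_const, List.toFinset_card_of_nodup nd, smul_eq_mul, mul_comm _ 7]
  rw [e, wt, wt, ← sum_add_distrib]
  refine sum_le_sum fun z hz => ?_
  by_cases c : z ∈ N
  · simp [c, (k z c).2.1, (k z c).2.2]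
  · by_cases o : s.out z
    · simp [c, o, h z hz o]
    · rw [if_neg c, if_neg o]; split_ifs <;> omega

/-- the potential -/
def psi (V : Finset ℕ) (adj : Arr (List ℕ)) (x : MS) : ℕ :=
  Option.casesOn (motive := fun _ => ℕ) x.2
    (3 * V.card + 6 + 4 * x.1.2.2.2.1.length + wt V adj (toSt x.1) + 2 * phU V x.1.2.2.2.2)
    fun _ => 0

/-- the invariant -/
def MI (V : Finset ℕ) (E : ℕ → ℕ → Prop) (m : ℕ → ℕ) (x : MS) : Prop :=
  Option.casesOn (motive := fun _ => Prop) x.2 (Inv V E m (toSt x.1) ∧ UI V x.1.2.2.2.2)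
    fun P => Imp V E m P

section
variable {m : Arr ℕ} {adj : Arr (List ℕ)} {s : SA} {v u fu : ℕ} {q : List (ℕ × ℕ)}

theorem sp_growR (hE : ∀ a b, E a b → E b a) (hm : IsM V E m.get) (hA : Adj V E adj)
    (I : Inv V E m.get (toSt s)) (U : UI V s.2.2.2.2) (hq : s.2.2.2.1 = (v, u) :: q)
    (h0 : s.1.get u = 0) : Sp g (growR m adj s v u q) fun x t => MI V E m.get x ∧
      t + 1 + psi V adj x ≤ psi V adj (s, none) := by
  have hu : u ∈ V := (I.qs (v, u) ((show (toSt s).q = _ from hq) ▸ List.mem_cons_self)).2.1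
  have hy := hm.mem hu
  have y0 : s.1.get (m.get u) = 0 := I.zero u hu h0
  refine (sp_pushR hA hy q).bind fun q' t ⟨q1, q2, q3⟩ => sp_pure.2 ⟨⟨?_, U⟩, ?_⟩
  · exact I.grow hE hm hq h0 (fun z => rfl) (by simp [toSt])
      (fun z k => Arr.get_set_ne _ k _) rfl (fun z => rfl) q1
  · have := wt_drop (V := V) (adj := adj) (s := toSt s)
      (s' := toSt ((s.1.set u 2).set (m.get u) 1, s.2.1.set (m.get u) (v, v),
        s.2.2.1.set (m.get u) (s.2.2.1.get (bsU s.2.2.2.2 v) + 1), q', s.2.2.2.2))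
      (N := [m.get u]) (fun z hz o => ?_) (by simp) (by simp [St.out, toSt, hy, y0])
    · simp only [psi, hq, List.length_cons, List.map_cons, List.map_nil, List.sum_cons,
        List.sum_nil, List.length_nil] at this ⊢
      omega
    · simp only [St.out, toSt, Arr.get_set] at o ⊢
      split_ifs with a b
      · exact .inl rfl
      · rw [b] at o; omega
      · exact o

theorem sp_meetR (hE : ∀ a b, E a b → E b a) (hm : IsM V E m.get) (hA : Adj V E adj)
    (hX : V.card ≤ g.X) (hf : 2 * V.card + 3 ≤ fu) (I : Inv V E m.get (toSt s))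
    (U : UI V s.2.2.2.2) (hq : s.2.2.2.1 = (v, u) :: q) (ou : (toSt s).out u) :
    Sp g (meetR m adj fu s v u q) fun x t => MI V E m.get x ∧
      t + 1 + psi V adj x ≤ psi V adj (s, none) := by
  obtain ⟨hv, hu, ov, e⟩ := I.qs (v, u) ((show (toSt s).q = _ from hq) ▸ List.mem_cons_self)
  simp only at hv hu ov e
  refine (sp_walkR hm I (I.isB hv ov) (I.isB hu ou) (by omega)).bind ?_
  rintro ⟨l, L, l', L'⟩ t0 ⟨h, h', d, r, e0⟩
  simp only at h h' d r e0
  obtain ⟨nd, len⟩ := chn_len hm I (I.isB hv ov) (I.isB hu ou) h h' d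
  refine sp_ite.2 ⟨fun c => ?_, fun c => ?_⟩
  · obtain rfl : l = l' := c
    obtain ⟨Bl, -, f3⟩ := h.facts hm I (I.isB hv ov)
    obtain ⟨-, -, g3⟩ := h'.facts hm I (I.isB hu ou)
    have hZ : ∀ b ∈ L ++ L', IsB V (toSt s) b ∧ (toSt s).lb (m.get b) = 2 := fun b k =>
      (List.mem_append.1 k).elim (fun k => ⟨(f3 b k).1, (f3 b k).2.1⟩)
        fun k => ⟨(g3 b k).1, (g3 b k).2.1⟩
    have no : ∀ b ∈ L ++ L', ¬(toSt s).out (m.get b) := fun b k o => by
      have := (hZ b k).2; rcases o with o | o <;> omega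
    have hL : ∀ b ∈ L ++ L', b ∈ V ∧ bsU s.2.2.2.2 b = b ∧ bsU s.2.2.2.2 (m.get b) = m.get b :=
      fun b k => ⟨(hZ b k).1.1, (hZ b k).1.2.2, I.sing _ (hm.mem (hZ b k).1.1) (no b k)⟩
    refine (sp_absL hm hA hX (v, u) Bl.1 L (fun b k => hL b (List.mem_append_left _ k))
      (s := (s.1, s.2.1, s.2.2.1, q, s.2.2.2.2)) (P := fun _ => False) U Bl.2.2
      fun z _ => ⟨False.elim, fun _ => rfl⟩).bind
      fun s1 t1 ⟨a1, a2, a3, a4, a5, a6, a7, a8, a9⟩ => ?_
    refine (sp_absL hm hA hX (u, v) Bl.1 L' (fun b k => hL b (List.mem_append_right _ k))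
      a1 a2 a3).bind fun s2 t2 ⟨c1, c2, c3, c4, c5, c6, c7, c8, c9⟩ => ?_
    simp only at a4 a5 a6 a7 a8 a9
    have hl : ∀ z ∈ V, (toSt s2).lb z = if m.get z ∈ L ++ L' then 3 else (toSt s).lb z :=
      fun z hz => by
        simp only [toSt, c4 z hz, a4 z hz, List.mem_append]
        split_ifs <;> tauto
    refine sp_pure.2 ⟨⟨I.blossom hE hm hq ou h h' d hl (fun z hz => ?_) (fun z hz => ?_)
      (by simp only [toSt, c6, a6]) (a7.trans c7 fun z _ => List.mem_append), c1⟩, ?_⟩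
    · simp only [toSt, c5 z hz, a5 z hz]
    · obtain ⟨x, y⟩ := c3 z hz
      have key : bsU s.2.2.2.2 z ∈ L ++ L' ∨ m.get z ∈ L ++ L' ↔
          bsU s.2.2.2.2 z ∈ L ++ L' ∨ bsU s.2.2.2.2 z ∈ (L ++ L').map m.get := by
        refine or_congr_right ⟨fun k => List.mem_map.2 ⟨_, k, (hL _ k).2.2.symm.trans ?_⟩,
          fun k => ?_⟩
        · rw [hm.inv hz]
        · obtain ⟨b, k, k'⟩ := List.mem_map.1 k
          have : ¬(toSt s).out z := fun o => no b k (k' ▸ .inl (I.isB hz o).2.1)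
          rw [← show bsU s.2.2.2.2 z = z from I.sing z hz this, ← k', hm.inv (hL b k).1]
          exact k
      change bsU s2.2.2.2.2 z = if bsU s.2.2.2.2 z ∈ L ++ L' ∨ m.get z ∈ L ++ L' then l
        else bsU s.2.2.2.2 z
      split_ifs with k
      · rw [key, List.map_append, List.mem_append, List.mem_append] at k
        exact x (by rcases k with (k | k) | k | k <;> simp only [k, true_or, or_true])
      · rw [key, List.map_append, List.mem_append, List.mem_append] at k
        simp only [not_or] at k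
        exact y (by simp only [k, or_self, not_false_eq_true])
    · have := wt_drop (V := V) (adj := adj) (s := toSt s) (s' := toSt s2)
        (N := (L ++ L').map m.get) (fun z hz o => ?_)
        (nd.map_on fun a ha b hb k => by rw [← hm.inv (hL a ha).1, k, hm.inv (hL b hb).1])
        fun z k => ?_
      · simp only [psi, hq, List.length_cons, List.map_map, List.map_append, List.sum_append,
          List.length_map, List.length_append, Function.comp_def] at this ⊢
        omega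
      · unfold St.out at o ⊢
        rw [hl z hz]; split_ifs <;> omega
      · obtain ⟨b, k', rfl⟩ := List.mem_map.1 k
        have hb := (hL b k').1
        exact ⟨hm.mem hb, no b k', .inr (by rw [hl _ (hm.mem hb), hm.inv hb, if_pos k'])⟩
  · obtain ⟨P, Q, a1, a2, a3⟩ := I.aug hm hv hu ov ou e h h' d c (r c).1 (r c).2
    have := a3.1.length_le
    rw [List.length_cons, List.length_append] at this
    refine (sp_segR a1 a2 (by omega)).bind fun o t ⟨x, y⟩ => sp_pure.2 ⟨a3.perm x.symm, ?_⟩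
    simp only [psi]; omega

theorem sp_edStep (hE : ∀ a b, E a b → E b a) (hm : IsM V E m.get) (hA : Adj V E adj)
    (hX : V.card ≤ g.X) (hf : 2 * V.card + 3 ≤ fu) (x : MS) (I : MI V E m.get x)
    (c : edCond x = true) : Sp g (edStep m adj fu x) fun x' t => MI V E m.get x' ∧
      t + 1 + psi V adj x' ≤ psi V adj x := by
  obtain ⟨s, _ | P⟩ := x
  · obtain ⟨I, U⟩ := I
    rw [edStep]
    cases hq : s.2.2.2.1 with
    | nil => simp [edCond, hq] at c
    | cons e q =>
      have hu : e.2 ∈ V := (I.qs e ((show (toSt s).q = _ from hq) ▸ List.mem_cons_self)).2.1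
      change Sp g (scanR m adj fu s e.1 e.2 q) _
      rw [scanR, sp_ite, sp_ite]
      refine ⟨fun k => sp_growR hE hm hA I U hq k, fun k => ⟨fun k' => ⟨⟨I.skip hq k', U⟩, ?_⟩,
        fun k' => sp_meetR hE hm hA hX hf I U hq ?_⟩⟩
      · simp only [psi, hq, List.length_cons]
        have : wt V adj (toSt (s.1, s.2.1, s.2.2.1, q, s.2.2.2.2)) = wt V adj (toSt s) := rfl
        omega
      · have : s.1.get e.2 ≤ 3 := I.le _ hu
        change s.1.get e.2 = 1 ∨ s.1.get e.2 = 3
        omega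
  · cases c

theorem sp_initR {Vl : List ℕ} (hm : IsM V E m.get) (hA : Adj V E adj) (nd : Vl.Nodup)
    (hV : ∀ v, v ∈ Vl ↔ v ∈ V) : Sp g (initR m adj Vl) fun s t => MI V E m.get (s, none) ∧
      s.2.2.2.1.length ≤ ∑ v ∈ V, (adj.get v).length ∧
      t ≤ ∑ v ∈ V, (adj.get v).length + 5 * V.card + 4 := by
  have eV : Vl.toFinset = V := by ext v; simp [hV]
  have cV : Vl.length = V.card := by rw [← eV, List.toFinset_card_of_nodup nd]
  have sV : (Vl.map fun v => (adj.get v).length).sum = ∑ v ∈ V, (adj.get v).length := by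
    rw [← eV, List.sum_toFinset _ nd]
  refine (sp_setAllP _ _ _).bind fun lb t1 ⟨a1, e1⟩ => (sp_setAllP _ _ _).bind
    fun cl t2 ⟨a2, e2⟩ => (sp_setAllP _ _ _).bind fun me t3 ⟨a3, e3⟩ => ?_
  refine (sp_foldL' (fun l q => (∀ v ∈ l, v ∈ V) ∧
      (∃ N : ℕ → Prop, QR V E [] q N ∧ ∀ v ∈ V, (N v → m.get v = v) ∧
        (m.get v = v → N v ∨ v ∈ l)) ∧
      q.length + (l.map fun v => (adj.get v).length).sum ≤ ∑ v ∈ V, (adj.get v).length)
    (fun v => (adj.get v).length + 1) ?_ ⟨fun v => (hV v).1, ⟨fun _ => False,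
      QR.refl fun _ _ => id, fun v hv => ⟨False.elim, fun _ => .inr ((hV v).2 hv)⟩⟩, by
        simp [sV]⟩).bind ?_
  · rintro v l q ⟨h1, ⟨N, h2, h3⟩, h4⟩
    have h1' := fun w k => h1 w (List.mem_cons_of_mem _ k)
    rw [List.map_cons, List.sum_cons] at h4
    refine sp_ite.2 ⟨fun k => (sp_pushR hA (h1 v List.mem_cons_self) q).mono
      fun r t ⟨x, y, z⟩ => ⟨⟨h1', ⟨fun w => N w ∨ w = v, h2.trans x fun _ _ => Iff.rfl,
        fun w hw => ⟨fun c => c.elim (h3 w hw).1 fun c => c ▸ k, fun c => ?_⟩⟩, by omega⟩, z.le⟩,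
      fun k => ⟨⟨h1', ⟨N, h2, fun w hw => ⟨(h3 w hw).1, fun c => ?_⟩⟩, by omega⟩, by omega⟩⟩
    · have := (h3 w hw).2 c
      rw [List.mem_cons] at this; tauto
    · exact ((h3 w hw).2 c).imp id fun y => (List.mem_cons.1 y).resolve_left fun z => k (by rw [← z, c])
  · rintro q t ⟨⟨-, ⟨N, h2, h3⟩, h4⟩, h5⟩
    have c : ∀ v ∈ V, cl.get v = v := fun v hv => by rw [a2, if_pos ((hV v).2 hv)]
    have b : ∀ v ∈ V, bsU (cl, me, .cst 1, cl) v = v := fun v hv => by
      simp only [bsU, c v hv]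
    have mm : ∀ v ∈ V, me.get v = [v] := fun v hv => by rw [a3, if_pos ((hV v).2 hv)]
    refine sp_pure.2 ⟨⟨inv_init hm (fun v hv => ?_) b (fun _ _ => rfl)
      ((QR.refl fun _ _ => id).trans h2 fun v hv => ?_), fun v hv => ?_, fun v hv w => ?_,
        fun v hv => ?_, fun v hv => ?_⟩, by simpa using h4, ?_⟩
    · exact (a1 v).trans (if_pos ((hV v).2 hv))
    · have := h3 v hv
      simp only [List.not_mem_nil, or_false, false_or] at this ⊢
      exact ⟨this.2, this.1⟩
    · simp [c v hv, mm v hv]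
    · simp only [c v hv, mm v hv, List.mem_singleton]
      exact ⟨fun k => by rw [k]; exact ⟨hv, c v hv⟩, fun k => (c w k.1).symm.trans k.2⟩
    · simp [c v hv, mm v hv]
    · rw [b v hv]; exact ⟨hv, rfl⟩
    · have : (Vl.map fun a => (adj.get a).length + 1 + 1).sum =
          (Vl.map fun a => (adj.get a).length).sum + 2 * Vl.length := by
        clear * -
        induction Vl with
        | nil => rfl
        | cons a l ih => simp only [List.map_cons, List.sum_cons, List.length_cons, ih]; omega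
      omega

/-- the cost bound of one search -/
def sCost (V : Finset ℕ) (adj : Arr (List ℕ)) : ℕ :=
  10 * ∑ v ∈ V, (adj.get v).length + V.card * (2 * Nat.log 2 V.card + 15) + 11

theorem sp_searchS {Vl : List ℕ} (hE : ∀ a b, E a b → E b a) (hm : IsM V E m.get)
    (hA : Adj V E adj) (nd : Vl.Nodup) (hV : ∀ v, v ∈ Vl ↔ v ∈ V) (hX : V.card ≤ g.X)
    (hf : sCost V adj ≤ fu) : Sp g (searchS adj Vl fu m) fun x t => MI V E m.get x ∧
      (x.2 = none → x.1.2.2.2.1 = []) ∧ t ≤ sCost V adj := by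
  rw [sCost, mul_add] at hf
  refine (sp_initR hm hA nd hV).bind fun s t ⟨I, a, b⟩ => ?_
  have w : wt V adj (toSt s) ≤ 5 * ∑ v ∈ V, (adj.get v).length + 7 * V.card := by
    rw [mul_sum, mul_comm 7, ← smul_eq_mul, ← sum_const, ← sum_add_distrib]
    exact sum_le_sum fun z _ => by split_ifs <;> omega
  have p := phU_le (V := V) (u := s.2.2.2.2)
  have e : V.card * (2 * Nat.log 2 V.card) = 2 * (V.card * Nat.log 2 V.card) := by ring
  have hp : psi V adj (s, none) = 3 * V.card + 6 + 4 * s.2.2.2.1.length + wt V adj (toSt s) +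
    2 * phU V s.2.2.2.2 := rfl
  refine (sp_whileF' (MI V E m.get) (psi V adj) (sp_edStep hE hm hA hX (by omega)) I
    (by omega)).mono fun x t' ⟨c, I', k⟩ => ⟨I', fun n => ?_, by rw [sCost, mul_add]; omega⟩
  simpa [edCond, n] using c

/-- **one Edmonds search** -/
theorem sp_search {Vl : List ℕ} (hE : ∀ a b, E a b → E b a) (hm : IsM V E m.get)
    (hA : Adj V E adj) (nd : Vl.Nodup) (hV : ∀ v, v ∈ Vl ↔ v ∈ V) (hX : V.card ≤ g.X)
    (hf : sCost V adj ≤ fu) :
    Sp g (search adj Vl fu m) fun o t => Found V E m.get o ∧ t ≤ sCost V adj := by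
  refine (sp_searchS hE hm hA nd hV hX hf).bind ?_
  rintro ⟨s, _ | P⟩ t ⟨I, c, k⟩
  · exact ⟨I.1.max hm (c rfl), k⟩
  · exact ⟨I, k⟩

end

end Crest.Agent.N325.Mt
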