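import Crest.Agent.N325.Mt.Inv
import Crest.Agent.N325.Lst.ListR
import Crest.Agent.N325.Mt.Defs
import Crest.Agent.N325.Mt.Tutte

-- ▼ part N325/Mt/Step
section

/-!
# Row 325, M6 (helper4): the steps of the Edmonds search keep the invariant
-/

set_option autoImplicit false
open Finset

namespace Crest.Agent.N325.Mt

variable {V : Finset ℕ} {E : ℕ → ℕ → Prop} {m : ℕ → ℕ} {s s' : St}

/-- `q'` consists of `q` and of all edges that start at a vertex of `N` -/
def QR (V : Finset ℕ) (E : ℕ → ℕ → Prop) (q q' : List (ℕ × ℕ)) (N : ℕ → Prop) : Prop :=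
  ∀ e, e ∈ q' ↔ e ∈ q ∨ (N e.1 ∧ e.1 ∈ V ∧ e.2 ∈ V ∧ E e.1 e.2)

theorem inv_init (hm : IsM V E m) (hl : ∀ v ∈ V, s.lb v = if m v = v then 1 else 0)
    (hb : ∀ v ∈ V, s.bs v = v) (hd : ∀ v ∈ V, s.dep v = 0)
    (hq : QR V E [] s.q fun v => m v = v) : Inv V E m s := by
  have o : ∀ v ∈ V, s.out v → m v = v := fun v hv o => by
    have := hl v hv
    by_contra c
    rw [if_neg c] at this
    rcases o with o | o <;> omega
  refine ⟨fun v hv => ?_, fun v hv e => ⟨by rw [hl v hv, if_pos e], hb v hv, hd v hv⟩,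
    fun v hv e => ?_, fun v hv e => ?_, fun v hv _ => hb v hv, fun v hv k => ?_,
    fun v hv _ k => absurd (hb v hv) k, fun v hv _ => ⟨[], ?_, by simp, by simp⟩,
    fun e k => ?_, fun v hv u hu k e => .inl ((hq _).2 (.inr ⟨o v hv k, hv, hu, e⟩))⟩
  · rw [hl v hv]; split_ifs <;> omega
  · rw [hl _ (hm.mem hv), hm.inv hv, if_neg]
    intro c
    rw [hl v hv, if_pos c.symm] at e; omega
  · rw [hl v hv] at e; split_ifs at e <;> omega
  · rw [hb v hv, hb v hv, hl v hv, if_pos (o v hv k)]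
    exact ⟨hv, rfl, rfl, .inl (o v hv k)⟩
  · rw [hb v hv]; exact .stop _
  · rcases (hq e).1 k with k | ⟨a, b, c, d⟩
    · cases k
    · exact ⟨b, c, .inl (by rw [hl _ b, if_pos a]), d⟩

theorem Inv.skip (I : Inv V E m s) {v u : ℕ} {q : List (ℕ × ℕ)} (hq : s.q = (v, u) :: q)
    (h2 : s.lb u = 2) : Inv V E m { s with q := q } := by
  refine ⟨I.le, I.root, I.zero, I.inn, I.sing, I.base, I.mate, I.seg,
    fun e k => I.qs e (hq ▸ List.mem_cons_of_mem _ k), fun z hz w hw o e => ?_⟩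
  rcases I.qc z hz w hw o e with k | k | k
  · rcases List.mem_cons.1 (hq ▸ k) with k | k
    · obtain ⟨-, rfl⟩ := Prod.ext_iff.1 k
      exact .inr (.inr (.inl h2))
    · exact .inl k
  · rcases List.mem_cons.1 (hq ▸ k) with k | k
    · obtain ⟨-, rfl⟩ := Prod.ext_iff.1 k
      rcases o with o | o <;> simp only at o h2 <;> omega
    · exact .inr (.inl k)
  · exact .inr (.inr k)

theorem Inv.grow (hE : ∀ a b, E a b → E b a) (hm : IsM V E m) (I : Inv V E m s) {v u : ℕ}
    {q : List (ℕ × ℕ)} (hq : s.q = (v, u) :: q) (h0 : s.lb u = 0)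
    (hl : ∀ z, s'.lb z = if z = m u then 1 else if z = u then 2 else s.lb z)
    (hr : (s'.br (m u)).1 = v) (hr' : ∀ z, z ≠ m u → s'.br z = s.br z) (hb : s'.bs = s.bs)
    (hd : ∀ z, s'.dep z = if z = m u then s.dep (s.bs v) + 1 else s.dep z)
    (hq' : QR V E q s'.q fun z => z = m u) : Inv V E m s' := by
  obtain ⟨hv, hu, ov, e⟩ := I.qs (v, u) (hq ▸ List.mem_cons_self)
  simp only at hv hu ov e
  have ne : u ≠ m u := fun c => by have := (I.root u hu c.symm).1; omega
  have y0 := I.zero u hu h0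
  have hy := hm.mem hu
  have A : ∀ z, s.lb z ≠ 0 → s'.lb z = s.lb z ∧ s'.br z = s.br z ∧ s'.dep z = s.dep z := by
    intro z k
    have a : z ≠ m u := fun c => k (c ▸ y0)
    have b : z ≠ u := fun c => k (c ▸ h0)
    rw [hl, hd, if_neg a, if_neg b, if_neg a]
    exact ⟨rfl, hr' z a, rfl⟩
  have O : ∀ z, s.out z → s'.out z := fun z o => by
    have := (A z (by rcases o with o | o <;> omega)).1
    unfold St.out at *; omega
  have ly : s'.lb (m u) = 1 := by rw [hl, if_pos rfl]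
  have lu : s'.lb u = 2 := by rw [hl, if_neg ne, if_pos rfl]
  have by' : s.bs (m u) = m u := I.sing _ hy (by unfold St.out; omega)
  have O' : ∀ z, s'.out z → z = m u ∨ s.out z := fun z o => by
    have := hl z
    unfold St.out at *
    split_ifs at this <;> omega
  refine ⟨fun z hz => ?_, fun z hz k => ?_, fun z hz k => ?_, fun z hz k => ?_,
    fun z hz k => ?_, fun z hz k => ?_, fun z hz k k' => ?_, fun z hz k => ?_, fun f k => ?_,
    fun z hz w hw o e' => ?_⟩
  · have := I.le z hz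
    rw [hl]; split_ifs <;> omega
  · obtain ⟨a, b, c⟩ := I.root z hz k
    obtain ⟨x, -, y⟩ := A z (by omega)
    rw [x, y, hb]; exact ⟨a, b, c⟩
  · have a : z ≠ m u := fun c => by rw [c] at k; omega
    have b : z ≠ u := fun c => by rw [c] at k; omega
    rw [hl, if_neg a, if_neg b] at k
    rw [hl, if_neg, if_neg]
    · exact I.zero z hz k
    · exact fun c => a (by rw [← c, hm.inv hz])
    · exact fun c => b (by rw [← hm.inv hz, c, hm.inv hu])
  · by_cases b : z = u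
    · subst b
      rw [hr, hb, (A _ (by rw [(I.isB hv ov).2.1]; omega)).2.2, hd, if_pos rfl]
      exact ⟨ly, by', hv, O v ov, hE _ _ e, Nat.lt_succ_self _⟩
    · have a : z ≠ m u := fun c => by rw [c] at k; omega
      rw [hl, if_neg a, if_neg b] at k
      obtain ⟨c1, c2, c3, c4, c5, c6⟩ := I.inn z hz k
      obtain ⟨x1, x2, x3⟩ := A (m z) (by omega)
      rw [x1, x2, x3, hb, (A _ (by rw [(I.isB c3 c4).2.1]; omega)).2.2]
      exact ⟨c1, c2, c3, O _ c4, c5, c6⟩
  · rw [hb]; exact I.sing z hz fun c => k (O z c)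
  · rw [hb]
    rcases O' z k with rfl | o
    · rw [by', by', hm.inv hu]; exact ⟨hy, ly, rfl, .inr lu⟩
    · obtain ⟨c1, c2, c3, c4⟩ := I.base z hz o
      exact ⟨c1, by rw [(A _ (by omega)).1, c2], c3, c4.imp id fun c => by
        rw [(A _ (by omega)).1, c]⟩
  · rw [hb] at k' ⊢
    rcases O' z k with rfl | o
    · exact absurd by' k'
    · exact (I.mate z hz o k').imp (O _) id
  · rw [hb]
    rcases O' z k with rfl | o
    · rw [by']; exact ⟨[], .stop _, by simp, by simp⟩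
    · obtain ⟨P, c1, c2, c3⟩ := I.seg z hz o
      exact ⟨P, c1.mono fun w _ k => ⟨(A w (by omega)).1, (A w (by omega)).2.1⟩, c2,
        fun w k => ⟨(c3 w k).1, O w (c3 w k).2.1, (c3 w k).2.2⟩⟩
  · rcases (hq' f).1 k with k | ⟨a, b, c, d⟩
    · obtain ⟨a, b, c, d⟩ := I.qs f (hq ▸ List.mem_cons_of_mem _ k)
      exact ⟨a, b, O _ c, d⟩
    · exact ⟨b, c, .inl (a ▸ ly), d⟩
  · rcases O' z o with a | o
    · exact .inl ((hq' _).2 (.inr ⟨a, hz, hw, e'⟩))
    rcases I.qc z hz w hw o e' with k | k | k | k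
    · rcases List.mem_cons.1 (hq ▸ k) with k | k
      · obtain ⟨-, rfl⟩ := Prod.ext_iff.1 k
        exact .inr (.inr (.inl lu))
      · exact .inl ((hq' _).2 (.inl k))
    · rcases List.mem_cons.1 (hq ▸ k) with k | k
      · obtain ⟨-, rfl⟩ := Prod.ext_iff.1 k
        rcases o with o | o <;> simp only at o h0 <;> omega
      · exact .inr (.inl ((hq' _).2 (.inl k)))
    · exact .inr (.inr (.inl (by rw [(A w (by omega)).1, k])))
    · exact .inr (.inr (.inr ⟨O w k.1, hb ▸ k.2⟩))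

/-- the path of an inner vertex of the first chain through the bridge `v u` -/
theorem Inv.brid (hm : IsM V E m) (I : Inv V E m s) {v u l z : ℕ} {L L' : List ℕ} (hv : v ∈ V)
    (hu : u ∈ V) (ov : s.out v) (ou : s.out u) (h : Chn m s (s.bs v) L l)
    (h' : Chn m s (s.bs u) L' l) (d : ∀ b ∈ L, b ∉ L') (hz : z ∈ V) (k : m z ∈ L) :
    ∃ P Q, Seg E m s.lb s.br v (m z) P ∧ Seg E m s.lb s.br u l Q ∧
      (z :: vs ((v, u) :: (P ++ Q))).Nodup ∧
      ∀ w ∈ vs ((v, u) :: (P ++ Q)), Along V m s (L ++ L') l w := by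
  obtain ⟨L1, h1, s1⟩ := h.pre k
  obtain ⟨P, a1, a2, a3⟩ := I.climb hm hv ov h1
  obtain ⟨Q, c1, c2, c3⟩ := I.climb hm hu ou h'
  obtain ⟨-, -, f3⟩ := h.facts hm I (I.isB hv ov)
  obtain ⟨-, -, g3⟩ := h1.facts hm I (I.isB hv ov)
  have z2 : s.lb z = 2 := by have := (f3 _ k).2.1; rwa [hm.inv hz] at this
  have p : (vs ((v, u) :: (P ++ Q))).Perm ((v :: vs P) ++ (u :: vs Q)) := by
    rw [vs_cons, vs_append, List.cons_append]
    exact List.perm_middle.symm.cons _
  refine ⟨P, Q, a1, c1, List.nodup_cons.2 ⟨fun c => ?_,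
    p.nodup_iff.2 (List.nodup_append.2 ⟨a2, c2, ?_⟩)⟩, fun w c => ?_⟩
  · rcases List.mem_append.1 (p.mem_iff.1 c) with c | c
    · rcases (a3 z c).2 with ⟨o | o, -⟩ | ⟨-, x⟩
      · omega
      · omega
      · exact (g3 _ x).2.2.false
    · rcases (c3 z c).2 with ⟨o | o, -⟩ | ⟨-, x⟩
      · omega
      · omega
      · exact d _ k x
  · rintro w k1 _ k2 rfl
    exact along_disj (fun b c => d b (s1 b c)) (d _ k) (fun c => (f3 _ (s1 _ c)).2.2.false)
      (fun c => by have := (f3 _ k).2.2; rw [c] at this; omega) (a3 w k1) (c3 w k2)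
  · rcases List.mem_append.1 (p.mem_iff.1 c) with c | c
    · refine ⟨(a3 w c).1, (a3 w c).2.imp (.imp id fun x => .inl (List.mem_append_left _ ?_))
        (.imp id fun x => List.mem_append_left _ (s1 _ x))⟩
      exact x.elim (s1 _) fun x => x ▸ k
    · exact ⟨(c3 w c).1, (c3 w c).2.imp (.imp id (.imp (List.mem_append_right _) id))
        (.imp id (List.mem_append_right _))⟩

theorem Inv.blossom (hE : ∀ a b, E a b → E b a) (hm : IsM V E m) (I : Inv V E m s) {v u l : ℕ}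
    {q : List (ℕ × ℕ)} {L L' : List ℕ} (hq : s.q = (v, u) :: q) (ou : s.out u)
    (h : Chn m s (s.bs v) L l) (h' : Chn m s (s.bs u) L' l) (d : ∀ b ∈ L, b ∉ L')
    (hl : ∀ z ∈ V, s'.lb z = if m z ∈ L ++ L' then 3 else s.lb z)
    (hr : ∀ z ∈ V, s'.br z = if m z ∈ L' then (u, v) else if m z ∈ L then (v, u) else s.br z)
    (hb : ∀ z ∈ V, s'.bs z = if s.bs z ∈ L ++ L' ∨ m z ∈ L ++ L' then l else s.bs z)
    (hd : s'.dep = s.dep) (hq' : QR V E q s'.q fun z => m z ∈ L ++ L') : Inv V E m s' := by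
  obtain ⟨hv, hu, ov, e⟩ := I.qs (v, u) (hq ▸ List.mem_cons_self)
  simp only at hv hu ov e
  obtain ⟨Bl, -, f3⟩ := h.facts hm I (I.isB hv ov)
  obtain ⟨-, -, g3⟩ := h'.facts hm I (I.isB hu ou)
  have hZ : ∀ b ∈ L ++ L', IsB V s b ∧ s.lb (m b) = 2 ∧ s.dep l < s.dep b := fun b k =>
    (List.mem_append.1 k).elim (f3 b) (g3 b)
  have F : ∀ z ∈ V, m z ∈ L ++ L' → s.lb z = 2 := fun z hz k => by
    have := (hZ _ k).2.1; rwa [hm.inv hz] at this
  have nl : l ∉ L ++ L' := fun c => (hZ _ c).2.2.false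
  have N : ∀ z ∈ V, s.out z → m z ∉ L ++ L' := fun z hz o c => by
    have := F z hz c; rcases o with o | o <;> omega
  have A : ∀ z ∈ V, s.out z → s'.lb z = s.lb z ∧ s'.br z = s.br z := fun z hz o => by
    have := N z hz o
    rw [hl z hz, hr z hz, if_neg this, if_neg fun c => this (List.mem_append_right _ c),
      if_neg fun c => this (List.mem_append_left _ c)]
    exact ⟨rfl, rfl⟩
  have O : ∀ z ∈ V, s.out z → s'.out z := fun z hz o => by
    have := (A z hz o).1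
    unfold St.out at *; omega
  have O3 : ∀ z ∈ V, m z ∈ L ++ L' → s'.lb z = 3 ∧ s'.bs z = l := fun z hz k => by
    rw [hl z hz, hb z hz, if_pos k, if_pos (.inr k)]; exact ⟨rfl, rfl⟩
  have O' : ∀ z ∈ V, s'.out z → m z ∉ L ++ L' → s.out z := fun z hz o k => by
    have := hl z hz
    rw [if_neg k] at this
    unfold St.out at *; omega
  have Al : ∀ w, Along V m s (L ++ L') l w → w ∈ V ∧ s'.out w ∧ s'.bs w = l := by
    rintro w ⟨hw, ⟨o, x⟩ | ⟨-, x⟩⟩
    · refine ⟨hw, O w hw o, ?_⟩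
      rw [hb w hw]
      split_ifs with c
      · rfl
      · exact x.resolve_left fun x => c (.inl x)
    · exact ⟨hw, .inr (O3 w hw x).1, (O3 w hw x).2⟩
  have keep : ∀ b, IsB V s b → b ∉ L ++ L' → s'.lb b = 1 ∧ s'.bs b = b ∧
      (m b = b ∨ s'.lb (m b) = 2) := fun b B k => by
    have o : s.out b := .inl B.2.1
    have := (I.base b B.1 o).2.2.2
    rw [B.2.2] at this
    rw [(A b B.1 o).1, hb b B.1, B.2.2, if_neg (not_or.2 ⟨k, N b B.1 o⟩), hl _ (hm.mem B.1),
      hm.inv B.1, if_neg k]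
    exact ⟨B.2.1, rfl, this⟩
  have bv : s'.bs v = l := (Al v ⟨hv, .inl ⟨ov, h.start.imp (List.mem_append_left _) id⟩⟩).2.2
  have bu : s'.bs u = l := (Al u ⟨hu, .inl ⟨ou, h'.start.imp (List.mem_append_right _) id⟩⟩).2.2
  have M : ∀ {a b : ℕ} {P : List (ℕ × ℕ)}, Seg E m s.lb s.br a b P → (∀ w ∈ a :: vs P, w ∈ V) →
      Seg E m s'.lb s'.br a b P := fun c k => c.mono fun w x o => A w (k w x) o
  refine ⟨fun z hz => ?_, fun z hz k => ?_, fun z hz k => ?_, fun z hz k => ?_,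
    fun z hz k => ?_, fun z hz k => ?_, fun z hz k k' => ?_, fun z hz k => ?_, fun f k => ?_,
    fun z hz w hw o e' => ?_⟩
  · have := I.le z hz
    rw [hl z hz]; split_ifs <;> omega
  · obtain ⟨a, b, c⟩ := I.root z hz k
    have := keep z ⟨hz, a, b⟩ fun x => by have := (hZ z x).2.1; rw [k] at this; omega
    exact ⟨this.1, this.2.1, hd ▸ c⟩
  · have a : m z ∉ L ++ L' := fun c => by have := (O3 z hz c).1; omega
    rw [hl z hz, if_neg a] at k
    rw [hl _ (hm.mem hz), hm.inv hz, if_neg fun c => by have := (hZ z c).1.2.1; omega]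
    exact I.zero z hz k
  · have a : m z ∉ L ++ L' := fun c => by have := (O3 z hz c).1; omega
    rw [hl z hz, if_neg a] at k
    obtain ⟨c1, c2, c3, c4, c5, c6⟩ := I.inn z hz k
    obtain ⟨x1, x2, -⟩ := keep _ ⟨hm.mem hz, c1, c2⟩ a
    rw [(A _ (hm.mem hz) (.inl c1)).2, hd]
    refine ⟨x1, x2, c3, O _ c3 c4, c5, lt_of_le_of_lt ?_ c6⟩
    rw [hb _ c3]
    split_ifs with c
    · exact (hZ _ (c.resolve_right (N _ c3 c4))).2.2.le
    · exact le_rfl
  · have a : m z ∉ L ++ L' := fun c => k (.inr (O3 z hz c).1)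
    have b : ¬s.out z := fun c => k (O z hz c)
    rw [hb z hz, I.sing z hz b, if_neg (not_or.2 ⟨fun c => b (.inl (hZ z c).1.2.1), a⟩)]
  · rw [hb z hz]
    split_ifs with c
    · exact ⟨Bl.1, keep l Bl nl⟩
    · have B := I.isB hz (O' z hz k fun x => c (.inr x))
      exact ⟨B.1, keep _ B fun x => c (.inl x)⟩
  · have hy := hm.mem hz
    by_cases c : m z ∈ L ++ L'
    · have B := (hZ _ c).1
      rw [(O3 z hz c).2]
      exact (Al _ ⟨hy, .inl ⟨.inl B.2.1, .inl (B.2.2.symm ▸ c)⟩⟩).2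
    have o := O' z hz k c
    by_cases c' : z ∈ L ++ L'
    · have := O3 _ hy ((hm.inv hz).symm ▸ c')
      rw [hb z hz, if_pos (.inl ((hZ z c').1.2.2.symm ▸ c'))]
      exact ⟨.inr this.1, this.2⟩
    have n : s.bs z ≠ z := fun x => k' (by rw [hb z hz, x, if_neg (not_or.2 ⟨c', c⟩)])
    obtain ⟨a, b⟩ := I.mate z hz o n
    refine ⟨O _ hy a, ?_⟩
    rw [hb z hz, hb _ hy, b, hm.inv hz]
    simp only [c, c']
  · by_cases c : m z ∈ L ++ L'
    · have zl : z ≠ l := fun x => by have := F z hz c; rw [x, Bl.2.1] at this; omega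
      rw [(O3 z hz c).2]
      by_cases c' : m z ∈ L'
      · obtain ⟨P, Q, a1, a2, a3, a4⟩ :=
          I.brid hm hu hv ou ov h' h (fun b x y => d b y x) hz c'
        have r : s'.br z = (u, v) := by rw [hr z hz, if_pos c']
        have a5 : ∀ w ∈ vs ((u, v) :: (P ++ Q)), Along V m s (L ++ L') l w := fun w x => by
          have := a4 w x
          simp only [Along, List.mem_append] at this ⊢; tauto
        refine ⟨(u, v) :: (P ++ Q), ?_, a3, fun w x => Al w (a5 w x)⟩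
        have v1 := fun w (x : w ∈ z :: vs ((u, v) :: (P ++ Q))) =>
          (List.mem_cons.1 x).elim (fun y => y ▸ hz) fun y => (a5 w y).1
        have b1 := M a1 fun w x => v1 w (mem_brdg.2 (.inr (.inl x)))
        have b2 := M a2 fun w x => v1 w (mem_brdg.2 (.inr (.inr x)))
        exact r ▸ .brdg zl (O3 z hz c).1 (r ▸ hE _ _ e) (r ▸ b1) (r ▸ b2)
      · have c'' := (List.mem_append.1 c).resolve_right c'
        obtain ⟨P, Q, a1, a2, a3, a5⟩ := I.brid hm hv hu ov ou h h' d hz c''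
        have r : s'.br z = (v, u) := by rw [hr z hz, if_neg c', if_pos c'']
        refine ⟨(v, u) :: (P ++ Q), ?_, a3, fun w x => Al w (a5 w x)⟩
        have v1 := fun w (x : w ∈ z :: vs ((v, u) :: (P ++ Q))) =>
          (List.mem_cons.1 x).elim (fun y => y ▸ hz) fun y => (a5 w y).1
        have b1 := M a1 fun w x => v1 w (mem_brdg.2 (.inr (.inl x)))
        have b2 := M a2 fun w x => v1 w (mem_brdg.2 (.inr (.inr x)))
        exact r ▸ .brdg zl (O3 z hz c).1 (r ▸ e) (r ▸ b1) (r ▸ b2)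
    have o := O' z hz k c
    by_cases c' : s.bs z ∈ L ++ L'
    · obtain ⟨L2, x1, x2⟩ : ∃ L2, Chn m s (s.bs z) L2 l ∧ ∀ c ∈ L2, c ∈ L ++ L' := by
        rcases List.mem_append.1 c' with c' | c'
        · obtain ⟨L2, x, y⟩ := h.suf c'
          exact ⟨L2, x, fun c k => List.mem_append_left _ (y c k)⟩
        · obtain ⟨L2, x, y⟩ := h'.suf c'
          exact ⟨L2, x, fun c k => List.mem_append_right _ (y c k)⟩
      obtain ⟨P, a1, a2, a3⟩ := I.climb hm hz o x1
      rw [hb z hz, if_pos (.inl c')]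
      refine ⟨P, M a1 fun w x => (a3 w x).1, a2, fun w x => Al w ?_⟩
      have := a3 w (List.mem_cons_of_mem _ x)
      exact ⟨this.1, this.2.imp (.imp id (.imp (x2 _) id)) (.imp id (x2 _))⟩
    · obtain ⟨P, a1, a2, a3⟩ := I.seg z hz o
      rw [hb z hz, if_neg (not_or.2 ⟨c', c⟩)]
      refine ⟨P, M a1 fun w x => (List.mem_cons.1 x).elim (fun y => y ▸ hz) fun y => (a3 w y).1,
        a2, fun w x => ?_⟩
      obtain ⟨y1, y2, y3⟩ := a3 w x
      rw [hb w y1, y3, if_neg (not_or.2 ⟨c', N w y1 y2⟩)]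
      exact ⟨y1, O w y1 y2, rfl⟩
  · rcases (hq' f).1 k with k | ⟨a, b, c, d⟩
    · obtain ⟨a, b, c, d⟩ := I.qs f (hq ▸ List.mem_cons_of_mem _ k)
      exact ⟨a, b, O _ a c, d⟩
    · exact ⟨b, c, .inr (O3 _ b a).1, d⟩
  · by_cases c : m z ∈ L ++ L'
    · exact .inl ((hq' _).2 (.inr ⟨c, hz, hw, e'⟩))
    have o' := O' z hz o c
    rcases I.qc z hz w hw o' e' with k | k | k | k
    · rcases List.mem_cons.1 (hq ▸ k) with k | k
      · obtain ⟨rfl, rfl⟩ := Prod.ext_iff.1 k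
        exact .inr (.inr (.inr ⟨O _ hu ou, bu.trans bv.symm⟩))
      · exact .inl ((hq' _).2 (.inl k))
    · rcases List.mem_cons.1 (hq ▸ k) with k | k
      · obtain ⟨rfl, rfl⟩ := Prod.ext_iff.1 k
        exact .inr (.inr (.inr ⟨O _ hv ov, bv.trans bu.symm⟩))
      · exact .inr (.inl ((hq' _).2 (.inl k)))
    · by_cases c' : m w ∈ L ++ L'
      · exact .inr (.inl ((hq' _).2 (.inr ⟨c', hw, hz, hE _ _ e'⟩)))
      · exact .inr (.inr (.inl (by rw [hl w hw, if_neg c', k])))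
    · refine .inr (.inr (.inr ⟨O w hw k.1, ?_⟩))
      rw [hb w hw, hb z hz, k.2]
      simp only [c, N w hw k.1]

end Crest.Agent.N325.Mt
end

-- ▼ part N325/Mt/UF
section

/-!
# Row 325, M6 (helper4): classes with a base, merged small-to-large
-/

set_option autoImplicit false
open Finset

namespace Crest.Agent.N325.Mt

/-- class of a vertex, members, size and base of a class -/
abbrev UA : Type := Arr ℕ × Arr (List ℕ) × Arr ℕ × Arr ℕ

/-- the base of the class of `v` -/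
def bsU (u : UA) (v : ℕ) : ℕ := u.2.2.2.get (u.1.get v)

/-- move class `i` into class `j`, new base `l` -/
def mvR (u : UA) (i j l : ℕ) : R UA :=
  setAllP (fun _ => j) (u.2.1.get i) u.1 >>= fun cl =>
    revAppL (u.2.1.get i) (u.2.1.get j) >>= fun me =>
      nat (u.2.2.1.get i + u.2.2.1.get j) >>= fun z =>
        pure (cl, u.2.1.set j me, u.2.2.1.set j z, u.2.2.2.set j l)

/-- merge the class of `a` with the class of the base `l` -/
def uniR (u : UA) (a l : ℕ) : R UA :=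
  if u.1.get a = u.1.get l then pure u
  else if u.2.2.1.get (u.1.get a) ≤ u.2.2.1.get (u.1.get l) then mvR u (u.1.get a) (u.1.get l) l
  else mvR u (u.1.get l) (u.1.get a) l

/-- the invariant -/
structure UI (V : Finset ℕ) (u : UA) : Prop where
  nd : ∀ v ∈ V, (u.2.1.get (u.1.get v)).Nodup
  mem : ∀ v ∈ V, ∀ w, w ∈ u.2.1.get (u.1.get v) ↔ w ∈ V ∧ u.1.get w = u.1.get v
  sz : ∀ v ∈ V, u.2.2.1.get (u.1.get v) = (u.2.1.get (u.1.get v)).length
  bs : ∀ v ∈ V, bsU u v ∈ V ∧ u.1.get (bsU u v) = u.1.get v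

/-- the potential -/
def phU (V : Finset ℕ) (u : UA) : ℕ :=
  ∑ v ∈ V, (Nat.log 2 V.card - Nat.log 2 (u.2.2.1.get (u.1.get v)))

variable {V : Finset ℕ} {u : UA} {g : Gl}

theorem phU_le : phU V u ≤ V.card * Nat.log 2 V.card :=
  (sum_le_card_nsmul _ _ _ fun _ _ => Nat.sub_le _ _).trans (smul_eq_mul _ _).le

theorem UI.bs_iff (h : UI V u) {v w : ℕ} (hv : v ∈ V) (hw : w ∈ V) :
    bsU u v = bsU u w ↔ u.1.get v = u.1.get w :=
  ⟨fun e => by rw [← (h.bs v hv).2, e, (h.bs w hw).2], fun e => by rw [bsU, bsU, e]⟩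

theorem sp_mvR (h : UI V u) (hX : V.card ≤ g.X) {a b l : ℕ} (ha : a ∈ V) (hb : b ∈ V)
    (hl : l ∈ V) (ne : u.1.get a ≠ u.1.get b) (el : u.1.get l = u.1.get a ∨ u.1.get l = u.1.get b)
    (le : u.2.2.1.get (u.1.get a) ≤ u.2.2.1.get (u.1.get b)) :
    Sp g (mvR u (u.1.get a) (u.1.get b) l) fun r t => UI V r ∧
      (∀ z ∈ V, bsU r z =
        if u.1.get z = u.1.get a ∨ u.1.get z = u.1.get b then l else bsU u z) ∧
      t + 2 * phU V r ≤ 2 * phU V u + 2 := by
  obtain ⟨cl, me, sz, bs⟩ := u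
  have nda := h.nd a ha
  have ndb := h.nd b hb
  have ma := h.mem a ha
  have mb := h.mem b hb
  have sa := h.sz a ha
  have sb := h.sz b hb
  simp only at *
  set i := cl.get a
  set j := cl.get b
  have nd : ((me.get i).reverse ++ me.get j).Nodup :=
    List.nodup_append.2 ⟨List.nodup_reverse.2 nda, ndb, fun x k y k' e =>
      ne (((ma x).1 (List.mem_reverse.1 k)).2.symm.trans (e ▸ ((mb y).1 k').2))⟩
  have tot : sz.get i + sz.get j ≤ V.card := by
    have := List.toFinset_card_of_nodup nd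
    rw [List.length_append, List.length_reverse, ← sa, ← sb] at this
    rw [← this]
    refine card_le_card fun x k => ?_
    rcases List.mem_append.1 (List.mem_toFinset.1 k) with k | k
    · exact ((ma x).1 (List.mem_reverse.1 k)).1
    · exact ((mb x).1 k).1
  refine (sp_setAllP _ _ _).bind fun cl' t1 ⟨c1, e1⟩ => (sp_revAppL _ _).bind ?_
  rintro _ t2 ⟨rfl, e2⟩
  simp only at e1 e2
  have c : ∀ z ∈ V, cl'.get z = if cl.get z = i then j else cl.get z := fun z hz => by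
    simp only [c1, ma, hz, true_and]
  have c2 : ∀ z ∈ V, cl.get z = i ∨ cl.get z = j → cl'.get z = j := fun z hz k => by
    rw [c z hz]; split_ifs with x
    · rfl
    · exact k.resolve_left x
  have c3 : ∀ z ∈ V, ¬(cl.get z = i ∨ cl.get z = j) → cl'.get z = cl.get z ∧ cl.get z ≠ j :=
    fun z hz k => ⟨by rw [c z hz, if_neg fun x => k (.inl x)], fun x => k (.inr x)⟩
  simp only [sp_bind, sp_nat, sp_pure]
  refine ⟨tot.trans hX, ⟨fun v hv => ?_, fun v hv w => ?_, fun v hv => ?_, fun v hv => ?_⟩,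
    fun z hz => ?_, ?_⟩
  · by_cases k : cl.get v = i ∨ cl.get v = j
    · simp only [c2 v hv k, Arr.get_set_self]; exact nd
    · simp only [(c3 v hv k).1, Arr.get_set_ne _ (c3 v hv k).2]; exact h.nd v hv
  · by_cases k : cl.get v = i ∨ cl.get v = j
    · simp only [c2 v hv k, Arr.get_set_self, List.mem_append, List.mem_reverse, ma, mb]
      refine ⟨fun x => ?_, fun x => ?_⟩
      · rcases x with x | x
        · exact ⟨x.1, c2 w x.1 (.inl x.2)⟩
        · exact ⟨x.1, c2 w x.1 (.inr x.2)⟩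
      · by_cases k' : cl.get w = i ∨ cl.get w = j
        · exact k'.imp (fun y => ⟨x.1, y⟩) fun y => ⟨x.1, y⟩
        · exact absurd ((c3 w x.1 k').1.symm.trans x.2) (c3 w x.1 k').2
    · simp only [(c3 v hv k).1, Arr.get_set_ne _ (c3 v hv k).2]
      rw [h.mem v hv w]
      refine and_congr_right fun hw => ?_
      by_cases k' : cl.get w = i ∨ cl.get w = j
      · exact ⟨fun x => absurd (x ▸ k') k, fun x => absurd (x.symm.trans (c2 w hw k')) (c3 v hv k).2⟩
      · rw [(c3 w hw k').1]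
  · by_cases k : cl.get v = i ∨ cl.get v = j
    · simp only [c2 v hv k, Arr.get_set_self, List.length_append, List.length_reverse, sa, sb]
    · simp only [(c3 v hv k).1, Arr.get_set_ne _ (c3 v hv k).2]; exact h.sz v hv
  · by_cases k : cl.get v = i ∨ cl.get v = j
    · simp only [bsU, c2 v hv k, Arr.get_set_self]; exact ⟨hl, c2 l hl el⟩
    · obtain ⟨x, y⟩ := h.bs v hv
      simp only [bsU] at x y
      simp only [bsU, (c3 v hv k).1, Arr.get_set_ne _ (c3 v hv k).2]
      exact ⟨x, (c3 _ x (by rw [y]; exact k)).1.trans y⟩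
  · split_ifs with k
    · simp only [bsU, c2 z hz k, Arr.get_set_self]
    · simp only [bsU, (c3 z hz k).1, Arr.get_set_ne _ (c3 z hz k).2]
  · have pos : sz.get i ≠ 0 := by
      rw [sa]; exact (List.length_pos_of_mem ((ma a).2 ⟨ha, rfl⟩)).ne'
    have l1 : Nat.log 2 (sz.get i) + 1 ≤ Nat.log 2 (sz.get i + sz.get j) := by
      rw [← Nat.log_mul_base one_lt_two pos]; exact Nat.log_mono_right (by omega)
    have l2 : Nat.log 2 (sz.get j) ≤ Nat.log 2 (sz.get i + sz.get j) :=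
      Nat.log_mono_right (by omega)
    have l3 : Nat.log 2 (sz.get i + sz.get j) ≤ Nat.log 2 V.card := Nat.log_mono_right tot
    have cd : (me.get i).length = ∑ v ∈ V, if cl.get v = i then 1 else 0 := by
      rw [← card_filter, ← List.toFinset_card_of_nodup nda]
      congr 1; ext x; simp only [List.mem_toFinset, ma, mem_filter]
    have : phU V (cl', me.set j ((me.get i).reverse ++ me.get j), sz.set j (sz.get i + sz.get j),
        bs.set j l) + (me.get i).length ≤ phU V (cl, me, sz, bs) := by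
      rw [cd, phU, phU, ← sum_add_distrib]
      refine sum_le_sum fun v hv => ?_
      by_cases k : cl.get v = i ∨ cl.get v = j
      · simp only [c2 v hv k, Arr.get_set_self]
        split_ifs with x
        · rw [x]; omega
        · rw [k.resolve_left x]; omega
      · simp only [(c3 v hv k).1, Arr.get_set_ne _ (c3 v hv k).2]
        rw [if_neg fun x => k (.inl x)]; omega
    omega

theorem sp_uniR (h : UI V u) (hX : V.card ≤ g.X) {a l : ℕ} (ha : a ∈ V) (hl : l ∈ V)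
    (el : bsU u l = l) : Sp g (uniR u a l) fun r t => UI V r ∧
      (∀ z ∈ V, bsU r z = if bsU u z = bsU u a then l else bsU u z) ∧
      t + 2 * phU V r ≤ 2 * phU V u + 2 := by
  have key : ∀ z ∈ V, ∀ p : Prop, ∀ [Decidable p],
      (p ↔ u.1.get z = u.1.get a ∨ u.1.get z = u.1.get l) →
      (if p then l else bsU u z) = if bsU u z = bsU u a then l else bsU u z := by
    intro z hz p _ hp
    simp only [hp, h.bs_iff hz ha]
    split_ifs with x y y
    · rfl
    · exact ((h.bs_iff hz hl).2 (x.resolve_left y) |>.trans el).symm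
    · exact absurd (.inl y) x
    · rfl
  rw [uniR, sp_ite, sp_ite]
  refine ⟨fun e => ⟨h, fun z hz => ?_, by omega⟩, fun ne => ⟨fun le => ?_, fun lt => ?_⟩⟩
  · split_ifs with x
    · exact x.trans (((h.bs_iff ha hl).2 e).trans el)
    · rfl
  · exact (sp_mvR h hX ha hl hl ne (.inr rfl) le).mono fun r t k =>
      ⟨k.1, fun z hz => (k.2.1 z hz).trans (key z hz _ Iff.rfl), k.2.2⟩
  · exact (sp_mvR h hX hl ha hl (Ne.symm ne) (.inl rfl) (by omega)).mono fun r t k =>
      ⟨k.1, fun z hz => (k.2.1 z hz).trans (key z hz _ or_comm), k.2.2⟩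

/-- `β` is `β₀` with the classes whose base satisfies `P` merged into `l` -/
def MG (V : Finset ℕ) (β₀ β : ℕ → ℕ) (l : ℕ) (P : ℕ → Prop) : Prop :=
  ∀ z ∈ V, (P (β₀ z) → β z = l) ∧ (¬P (β₀ z) → β z = β₀ z)

theorem MG.congr {β₀ β : ℕ → ℕ} {l : ℕ} {P Q : ℕ → Prop} (h : MG V β₀ β l P)
    (k : ∀ c, P c ↔ Q c) : MG V β₀ β l Q := fun z hz => by rw [← k]; exact h z hz

theorem MG.uni {β₀ β β' : ℕ → ℕ} {l a : ℕ} {P : ℕ → Prop} (h : MG V β₀ β l P) (ha : a ∈ V)
    (e : β₀ a = a) (k : ∀ z ∈ V, β' z = if β z = β a then l else β z) :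
    MG V β₀ β' l fun c => c = a ∨ P c := by
  intro z hz
  have h1 := h z hz
  have h2 := h a ha
  rw [e] at h2
  rw [k z hz]
  by_cases pz : P (β₀ z)
  · simp [pz, h1.1 pz]
  · rw [h1.2 pz]
    by_cases pa : P a
    · have : β₀ z ≠ a := fun c => pz (c ▸ pa)
      simpa [pz, this, h2.1 pa] using Eq.symm
    · rw [h2.2 pa]
      by_cases c : β₀ z = a <;> simp [c, pz, pa]

end Crest.Agent.N325.Mt
end

-- ▼ part N325/Mt/Cert
section

/-! Tutte–Berge certificates with class labels. -/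

set_option autoImplicit false
open Finset

namespace Crest.Agent.N325.Mt

variable {V : Finset ℕ} {E : ℕ → ℕ → Prop} {m : ℕ → ℕ}

/-- barrier `A`, outer set `O` with classes `cls`, odd classes `B`. -/
structure Cert (V : Finset ℕ) (E : ℕ → ℕ → Prop) (A O : Finset ℕ) (cls : ℕ → ℕ) (B : Finset ℕ) :
    Prop where
  subA : A ⊆ V
  subO : O ⊆ V
  dis : Disjoint O A
  odd : ∀ b ∈ B, Odd #(O.filter fun v => cls v = b)
  cl : ∀ v ∈ O, ∀ u ∈ V, E v u → u ∈ A ∨ (u ∈ O ∧ cls u = cls v)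

variable {A O B : Finset ℕ} {cls : ℕ → ℕ}

theorem Cert.bar (h : Cert V E A O cls B) :
    Bar V E A (B.image fun b => O.filter fun v => cls v = b) ∧
      #(B.image fun b => O.filter fun v => cls v = b) = #B := by
  refine ⟨⟨fun C hC => ?_, fun C hC => ?_, fun C hC => ?_, fun C hC u hu v hv e => ?_,
    fun C hC C' hC' hne => ?_⟩, card_image_of_injOn fun b hb b' _ e => ?_⟩
  all_goals try obtain ⟨b, hb, rfl⟩ := mem_image.1 hC
  · exact (filter_subset _ _).trans h.subO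
  · exact h.dis.mono_left (filter_subset _ _)
  · exact h.odd b hb
  · obtain ⟨h1, h2⟩ := mem_filter.1 hu
    exact (h.cl u h1 v hv e).symm.imp_left fun k => mem_filter.2 ⟨k.1, k.2.trans h2⟩
  · obtain ⟨b', -, rfl⟩ := mem_image.1 hC'
    refine disjoint_left.2 fun v h1 h2 => hne ?_
    rw [← (mem_filter.1 h1).2, ← (mem_filter.1 h2).2]
  · obtain ⟨v, hv⟩ := card_pos.1 (h.odd b hb).pos
    have e' : (O.filter fun v => cls v = b) = O.filter fun v => cls v = b' := e
    have hv' : v ∈ O.filter fun v => cls v = b' := e' ▸ hv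
    exact (mem_filter.1 hv).2.symm.trans (mem_filter.1 hv').2

theorem Cert.bound (h : Cert V E A O cls B) (hm : IsM V E m) : #B ≤ ex V m + #A :=
  h.bar.2 ▸ h.bar.1.card_le hm

theorem Cert.max (h : Cert V E A O cls B) (k : ex V m + #A ≤ #B) : Max V E m := fun _ hs => by
  have := h.bound hs; omega

/-- **Tutte–Berge** in the language of `IsM`. -/
theorem exists_isM_ex_le (hE : ∀ a b, E a b → E b a) (k : ℕ)
    (h : ∀ A ⊆ V, ∀ F, Bar V E A F → #F ≤ #A + k) : ∃ m, IsM V E m ∧ ex V m ≤ k :=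
  exists_ex_le V E hE k h

/-- real weights: degrees `≤ r`, odd cuts `≥ r` up to deficits `d` of total `< r (k + 1)`. -/
theorem exists_isM_of_wt (hE : ∀ a b, E a b → E b a) (w : ℕ → ℕ → ℝ) (d : ℕ → ℝ) {r : ℝ}
    (hr : 0 < r) (k : ℕ) (h0 : ∀ a b, 0 ≤ w a b) (hd : ∀ a, 0 ≤ d a)
    (hw : ∀ a b, w a b ≠ 0 → E a b) (hdeg : ∀ b ∈ V, ∑ a ∈ V, w a b ≤ r)
    (hcut : ∀ S ⊆ V, Odd #S → r ≤ ∑ a ∈ S, ∑ b ∈ V \ S, w a b + ∑ a ∈ S, d a)
    (hk : ∑ a ∈ V, d a < r * (k + 1)) : ∃ m, IsM V E m ∧ ex V m ≤ k := by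
  refine exists_isM_ex_le hE k fun A hA F hF => ?_
  have hdis : (F : Set (Finset ℕ)).PairwiseDisjoint fun C => C :=
    fun C hC C' hC' hne => hF.dis C hC C' hC' hne
  have hU : F.biUnion (fun C => C) ⊆ V := biUnion_subset.2 hF.sub
  have h1 : (#F : ℝ) * r ≤ ∑ C ∈ F, (∑ a ∈ C, ∑ b ∈ A, w a b + ∑ a ∈ C, d a) := by
    rw [← nsmul_eq_mul]
    refine card_nsmul_le_sum F _ r fun C hC => (hcut C (hF.sub C hC) (hF.odd C hC)).trans ?_
    refine add_le_add_left (sum_le_sum fun a ha => ?_) _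
    rw [← sum_filter_ne_zero]
    refine sum_le_sum_of_subset_of_nonneg (fun b hb => ?_) fun b _ _ => h0 a b
    obtain ⟨h2, h3⟩ := mem_filter.1 hb
    exact (hF.cl C hC a ha b (mem_sdiff.1 h2).1 (hw a b h3)).resolve_left (mem_sdiff.1 h2).2
  rw [sum_add_distrib, ← sum_biUnion hdis, ← sum_biUnion hdis, sum_comm] at h1
  have h2 : ∑ a ∈ F.biUnion (fun C => C), d a ≤ ∑ a ∈ V, d a :=
    sum_le_sum_of_subset_of_nonneg hU fun a _ _ => hd a
  have h3 : ∑ b ∈ A, ∑ a ∈ F.biUnion (fun C => C), w a b ≤ #A * r := by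
    rw [← nsmul_eq_mul]
    exact sum_le_card_nsmul A _ r fun b hb =>
      (sum_le_sum_of_subset_of_nonneg hU fun a _ _ => h0 a b).trans (hdeg b (hA hb))
  have h4 : (#F : ℝ) < (#A + k + 1 : ℕ) := by
    push_cast
    by_contra hc
    have := mul_le_mul_of_nonneg_right (not_lt.1 hc) hr.le
    nlinarith
  exact Nat.lt_succ_iff.1 (by exact_mod_cast h4)

end Crest.Agent.N325.Mt
end

-- ▼ part N325/Mt/Walk

/-!
# Row 325, M6 (helper4): certificate, the walk to the common base, absorbing a chain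
-/

set_option autoImplicit false
open Finset

namespace Crest.Agent.N325.Mt

variable {V : Finset ℕ} {E : ℕ → ℕ → Prop} {m : ℕ → ℕ} {g : Gl}

/-- the Gallai–Edmonds certificate of a finished search -/
theorem Inv.cert {s : St} (hm : IsM V E m) (I : Inv V E m s) (hq : s.q = []) :
    Cert V E (V.filter fun v => s.lb v = 2) (V.filter s.out) s.bs
      (V.filter fun b => s.lb b = 1 ∧ s.bs b = b) ∧
    ex V m + (V.filter fun v => s.lb v = 2).card ≤
      (V.filter fun b => s.lb b = 1 ∧ s.bs b = b).card := by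
  refine ⟨⟨filter_subset _ _, filter_subset _ _, disjoint_filter.2 fun v _ o k => ?_,
    fun b hb => ?_, fun v hv u hu e => ?_⟩, ?_⟩
  · rcases o with o | o <;> omega
  · obtain ⟨b1, b2, b3⟩ := mem_filter.1 hb
    have hb' : b ∈ (V.filter s.out).filter fun v => s.bs v = b :=
      mem_filter.2 ⟨mem_filter.2 ⟨b1, .inl b2⟩, b3⟩
    rw [← card_erase_add_one hb']
    refine (even_card_of_invol _ m (fun v k => ?_) (fun v k => ?_) fun v k => ?_).add_one
    all_goals
      simp only [mem_erase, mem_filter] at k ⊢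
      obtain ⟨k1, ⟨k2, k3⟩, k4⟩ := k
    · obtain ⟨x, y⟩ := I.mate v k2 k3 (k4 ▸ k1.symm)
      refine ⟨fun c => ?_, ⟨hm.mem k2, x⟩, y.trans k4⟩
      have := (I.base b b1 (.inl b2)).2.2.2
      rw [b3, ← c, hm.inv k2, c] at this
      rcases this with z | z
      · exact k1 z
      · rcases k3 with o | o <;> omega
    · exact hm.inv k2
    · exact fun c => k1 ((I.root v k2 c).2.1.symm.trans k4)
  · obtain ⟨v1, v2⟩ := mem_filter.1 hv
    rcases I.qc v v1 u hu v2 e with k | k | k | k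
    · rw [hq] at k; cases k
    · rw [hq] at k; cases k
    · exact .inl (mem_filter.2 ⟨hu, k⟩)
    · exact .inr ⟨mem_filter.2 ⟨hu, k.1⟩, k.2⟩
  · rw [ex, ← card_image_of_injOn (s := V.filter fun v => s.lb v = 2) (f := m)
      fun a ha b hb e => by
        rw [← hm.inv (mem_filter.1 ha).1, e, hm.inv (mem_filter.1 hb).1], ← card_union_of_disjoint]
    · refine card_le_card fun v k => ?_
      rcases mem_union.1 k with k | k
      · obtain ⟨a, b⟩ := mem_exs.1 k
        exact mem_filter.2 ⟨a, (I.root v a b).1, (I.root v a b).2.1⟩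
      · obtain ⟨x, a, rfl⟩ := mem_image.1 k
        obtain ⟨a, b⟩ := mem_filter.1 a
        exact mem_filter.2 ⟨hm.mem a, (I.inn x a b).1, (I.inn x a b).2.1⟩
    · refine disjoint_left.2 fun v k k' => ?_
      obtain ⟨x, a, rfl⟩ := mem_image.1 k'
      obtain ⟨a, b⟩ := mem_filter.1 a
      have := (I.inn x a b).1
      rw [← (mem_exs.1 k).2, hm.inv a] at this
      omega

theorem Inv.max {s : St} (hm : IsM V E m) (I : Inv V E m s) (hq : s.q = []) : Max V E m :=
  (I.cert hm hq).1.max (I.cert hm hq).2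

/-- labels, pointers, depths, queue, classes -/
abbrev SA : Type := Arr ℕ × Arr (ℕ × ℕ) × Arr ℕ × List (ℕ × ℕ) × UA

/-- the abstract state -/
def toSt (s : SA) : St := ⟨s.1.get, s.2.1.get, bsU s.2.2.2.2, s.2.2.1.get, s.2.2.2.1⟩

/-- adjacency lists of the graph `E` on `V` -/
def Adj (V : Finset ℕ) (E : ℕ → ℕ → Prop) (adj : Arr (List ℕ)) : Prop :=
  ∀ v ∈ V, ∀ u, u ∈ adj.get v ↔ u ∈ V ∧ E v u

theorem QR.trans {q q1 q2 : List (ℕ × ℕ)} {N1 N2 N : ℕ → Prop} (h : QR V E q q1 N1)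
    (h' : QR V E q1 q2 N2) (k : ∀ z ∈ V, N z ↔ N1 z ∨ N2 z) : QR V E q q2 N := fun e => by
  rw [h' e, h e]
  by_cases c : e.1 ∈ V
  · rw [k _ c]; tauto
  · tauto

theorem QR.refl {q : List (ℕ × ℕ)} {N : ℕ → Prop} (k : ∀ z ∈ V, ¬N z) : QR V E q q N :=
  fun _ => ⟨.inl, fun h => h.elim id fun h => absurd h.1 (k _ h.2.1)⟩

/-- push all edges at `w` -/
def pushR (adj : Arr (List ℕ)) (w : ℕ) (q : List (ℕ × ℕ)) : R (List (ℕ × ℕ)) :=
  foldP (fun u q => (w, u) :: q) (adj.get w) q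

theorem sp_pushR {adj : Arr (List ℕ)} (hA : Adj V E adj) {w : ℕ} (hw : w ∈ V)
    (q : List (ℕ × ℕ)) : Sp g (pushR adj w q) fun r t => QR V E q r (fun z => z = w) ∧
      r.length = q.length + (adj.get w).length ∧ t = (adj.get w).length + 1 := by
  refine (sp_foldP _ _ _).mono ?_
  rintro _ t ⟨rfl, e⟩
  rw [foldl_cons_map fun u => (w, u)]
  refine ⟨fun ⟨a, b⟩ => ?_, by simp [add_comm], e⟩
  simp only [List.mem_append, List.mem_reverse, List.mem_map, Prod.mk.injEq, hA w hw]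
  constructor
  · rintro (⟨u, x, rfl, rfl⟩ | x)
    · exact .inr ⟨rfl, hw, x⟩
    · exact .inl x
  · rintro (x | ⟨rfl, -, x⟩)
    · exact .inr x
    · exact .inl ⟨b, x, rfl, rfl⟩

/-- the state of the walk: two bases and the chains below them -/
abbrev WS : Type := ℕ × List ℕ × ℕ × List ℕ

def wCond (m : Arr ℕ) (s : SA) (w : WS) : Bool :=
  if w.1 = w.2.2.1 then false
  else if s.2.2.1.get w.2.2.1 ≤ s.2.2.1.get w.1 then (if m.get w.1 = w.1 then false else true)
  else true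

def wStep (s : SA) (w : WS) : WS :=
  if s.2.2.1.get w.2.2.1 ≤ s.2.2.1.get w.1 then
    (bsU s.2.2.2.2 (s.2.1.get w.1).1, w.1 :: w.2.1, w.2.2.1, w.2.2.2)
  else (w.1, w.2.1, bsU s.2.2.2.2 (s.2.1.get w.2.2.1).1, w.2.2.1 :: w.2.2.2)

/-- climb from the bases `a`, `c` until they meet or both are roots -/
def walkR (m : Arr ℕ) (s : SA) (fu a c : ℕ) : R WS :=
  whileF (wCond m s) (fun w => pure (wStep s w)) fu (a, [], c, [])

theorem chn_len {s : St} (hm : IsM V E m) (I : Inv V E m s) {a c l l' : ℕ} {L L' : List ℕ}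
    (ha : IsB V s a) (hc : IsB V s c) (h : Chn m s a L l) (h' : Chn m s c L' l')
    (d : ∀ b ∈ L, b ∉ L') : (L ++ L').Nodup ∧ L.length + L'.length ≤ V.card := by
  obtain ⟨-, f2, f3⟩ := h.facts hm I ha
  obtain ⟨-, g2, g3⟩ := h'.facts hm I hc
  have nd : (L ++ L').Nodup := List.nodup_append.2 ⟨f2, g2, fun x k y k' e => d x k (e ▸ k')⟩
  refine ⟨nd, ?_⟩
  rw [← List.length_append, ← List.toFinset_card_of_nodup nd]
  exact card_le_card fun x k => (List.mem_append.1 (List.mem_toFinset.1 k)).elim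
    (fun k => (f3 x k).1.1) fun k => (g3 x k).1.1

theorem sp_walkR {m : Arr ℕ} {s : SA} (hm : IsM V E m.get) (I : Inv V E m.get (toSt s))
    {a c fu : ℕ} (ha : IsB V (toSt s) a) (hc : IsB V (toSt s) c) (hf : V.card < fu) :
    Sp g (walkR m s fu a c) fun w t => Chn m.get (toSt s) a w.2.1 w.1 ∧
      Chn m.get (toSt s) c w.2.2.2 w.2.2.1 ∧ (∀ b ∈ w.2.1, b ∉ w.2.2.2) ∧
      (w.1 ≠ w.2.2.1 → m.get w.1 = w.1 ∧ m.get w.2.2.1 = w.2.2.1) ∧
      t = w.2.1.length + w.2.2.2.length + 1 := by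
  have nr : ∀ b, IsB V (toSt s) b → m.get b ≠ b → (toSt s).lb (m.get b) = 2 ∧
      s.2.2.1.get (bsU s.2.2.2.2 (s.2.1.get b).1) < s.2.2.1.get b := fun b B k => by
    have := (I.base b B.1 (.inl B.2.1)).2.2.2
    rw [B.2.2] at this
    exact ⟨this.resolve_left k, (I.up hm B.1 (this.resolve_left k)).2.2.2⟩
  refine (sp_whileF (fun (w : WS) t => Chn m.get (toSt s) a w.2.1 w.1 ∧
      Chn m.get (toSt s) c w.2.2.2 w.2.2.1 ∧ (∀ b ∈ w.2.1, b ∉ w.2.2.2) ∧
      (∀ x ∈ w.2.1, x ≠ w.2.2.1 ∧ s.2.2.1.get w.2.2.1 ≤ s.2.2.1.get x) ∧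
      (∀ x ∈ w.2.2.2, x ≠ w.1 ∧ s.2.2.1.get w.1 ≤ s.2.2.1.get x) ∧
      t = w.2.1.length + w.2.2.2.length) (fun w => V.card - (w.2.1.length + w.2.2.2.length))
    ?_ (t := 0) ⟨.nil, .nil, by simp, by simp, by simp, rfl⟩ (by simpa using hf)).mono ?_
  · rintro ⟨x, L, y, L'⟩ t ⟨h1, h2, h3, h4, h5, h6⟩ e
    simp only at h1 h2 h3 h4 h5 h6
    have Bx := (h1.facts hm I ha).1
    have By := (h2.facts hm I hc).1
    simp only [wCond] at e
    have ne : x ≠ y := fun c => by simp [c] at e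
    rw [sp_pure, wStep]
    simp only
    split_ifs with k
    · obtain ⟨u1, u2⟩ := nr x Bx fun c => by simp [ne, k, c] at e
      have d : ∀ b ∈ x :: L, b ∉ L' := fun b hb => (List.mem_cons.1 hb).elim
        (fun z c => (h5 b c).1 z) (h3 b)
      have := (chn_len hm I ha hc (h1.step u1) h2 d).2
      simp only [List.length_cons] at this ⊢
      refine ⟨⟨h1.step u1, h2, d, fun b hb => ?_, fun b hb => ?_, by omega⟩, by omega⟩
      · exact (List.mem_cons.1 hb).elim (fun z => z ▸ ⟨ne, k⟩) (h4 b)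
      · have := (h5 b hb).2
        exact ⟨fun z => by rw [← z] at u2; omega, by omega⟩
    · obtain ⟨u1, u2⟩ := nr y By fun c => by
        have : s.2.2.1.get y = 0 := (I.root y By.1 c).2.2
        omega
      have d : ∀ b ∈ L, b ∉ y :: L' := fun b hb c => (List.mem_cons.1 c).elim
        (h4 b hb).1 (h3 b hb)
      have := (chn_len hm I ha hc h1 (h2.step u1) d).2
      simp only [List.length_cons] at this ⊢
      refine ⟨⟨h1, h2.step u1, d, fun b hb => ?_, fun b hb => ?_, by omega⟩, by omega⟩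
      · have := (h4 b hb).2
        exact ⟨fun z => by rw [← z] at u2; omega, by omega⟩
      · exact (List.mem_cons.1 hb).elim (fun z => z ▸ ⟨ne.symm, by omega⟩) (h5 b)
  · rintro ⟨x, L, y, L'⟩ _ ⟨e, t, rfl, h1, h2, h3, -, -, h6⟩
    simp only at h1 h2 h3 h6
    refine ⟨h1, h2, h3, fun ne => ?_, by simp only; omega⟩
    simp only at ne ⊢
    simp only [wCond, if_neg ne] at e
    split_ifs at e with k1 k2
    refine ⟨k2, by_contra fun c => ?_⟩
    have := (nr y (h2.facts hm I hc).1 c).2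
    have : s.2.2.1.get x = 0 := (I.root x (h1.facts hm I ha).1.1 k2).2.2
    omega

/-- absorb the class of the base `b` and its mate into the class of `l`; bridge `w` -/
def absR (m : Arr ℕ) (adj : Arr (List ℕ)) (w : ℕ × ℕ) (l b : ℕ) (s : SA) : R SA :=
  uniR s.2.2.2.2 b l >>= fun u => uniR u (m.get b) l >>= fun u' =>
    pushR adj (m.get b) s.2.2.2.1 >>= fun q =>
      pure (s.1.set (m.get b) 3, s.2.1.set (m.get b) w, s.2.2.1, q, u')

theorem sp_absL {m : Arr ℕ} {adj : Arr (List ℕ)} (hm : IsM V E m.get) (hA : Adj V E adj)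
    (hX : V.card ≤ g.X) (w : ℕ × ℕ) {l : ℕ} (hl : l ∈ V) {β : ℕ → ℕ} (L : List ℕ)
    (hL : ∀ b ∈ L, b ∈ V ∧ β b = b ∧ β (m.get b) = m.get b) {s : SA} {P : ℕ → Prop}
    (hU : UI V s.2.2.2.2) (el : bsU s.2.2.2.2 l = l) (hM : MG V β (bsU s.2.2.2.2) l P) :
    Sp g (foldL (absR m adj w l) L s) fun r t => UI V r.2.2.2.2 ∧ bsU r.2.2.2.2 l = l ∧
      MG V β (bsU r.2.2.2.2) l (fun c => (c ∈ L ∨ c ∈ L.map m.get) ∨ P c) ∧
      (∀ z ∈ V, r.1.get z = if m.get z ∈ L then 3 else s.1.get z) ∧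
      (∀ z ∈ V, r.2.1.get z = if m.get z ∈ L then w else s.2.1.get z) ∧ r.2.2.1 = s.2.2.1 ∧
      QR V E s.2.2.2.1 r.2.2.2.1 (fun z => m.get z ∈ L) ∧
      r.2.2.2.1.length = s.2.2.2.1.length + (L.map fun b => (adj.get (m.get b)).length).sum ∧
      t + 2 * phU V r.2.2.2.2 ≤ 2 * phU V s.2.2.2.2 +
        (L.map fun b => (adj.get (m.get b)).length).sum + 6 * L.length + 1 := by
  induction L generalizing s P with
  | nil =>
    exact ⟨Nat.zero_le _, hU, el, hM.congr (by simp), by simp, by simp, rfl,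
      QR.refl (by simp), by simp, by simp; omega⟩
  | cons b L ih =>
    obtain ⟨b1, b2, b3⟩ := hL b List.mem_cons_self
    have hx := hm.mem b1
    have iff : ∀ z ∈ V, z = m.get b ↔ m.get z = b := fun z hz =>
      ⟨fun e => by rw [e, hm.inv b1], fun e => by rw [← e, hm.inv hz]⟩
    refine ⟨Nat.zero_le _, sp_bind.2 ?_⟩
    refine (sp_uniR hU hX b1 hl el).bind fun u t1 ⟨u1, u2, u3⟩ => ?_
    have e1 : bsU u l = l := by rw [u2 l hl, el, ite_self]
    refine (sp_uniR u1 hX hx hl e1).bind fun u' t2 ⟨v1, v2, v3⟩ => ?_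
    have e2 : bsU u' l = l := by rw [v2 l hl, e1, ite_self]
    refine (sp_pushR hA hx _).bind fun q t3 ⟨q1, q2, q3⟩ => sp_pure.2 ?_
    refine (ih (fun c k => hL c (List.mem_cons_of_mem _ k))
      (s := (s.1.set (m.get b) 3, s.2.1.set (m.get b) w, s.2.2.1, q, u')) v1 e2
      ((hM.uni b1 b2 u2).uni hx b3 v2)).mono fun r t ⟨r1, r2, r3, r4, r5, r6, r7, r8, r9⟩ => ?_
    simp only at r4 r5 r6 r7 r8 r9
    refine ⟨r1, r2, r3.congr fun c => ?_, fun z hz => ?_, fun z hz => ?_, r6,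
      q1.trans r7 fun z hz => ?_, ?_, ?_⟩
    · simp only [List.mem_cons, List.map_cons]; tauto
    · rw [r4 z hz, Arr.get_set]
      simp only [iff z hz, List.mem_cons]
      split_ifs <;> tauto
    · rw [r5 z hz, Arr.get_set]
      simp only [iff z hz, List.mem_cons]
      split_ifs <;> tauto
    · rw [iff z hz, List.mem_cons]
    · simp only [List.map_cons, List.sum_cons]; omega
    · simp only [List.map_cons, List.sum_cons, List.length_cons]; omega

end Crest.Agent.N325.Mt
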