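import Crest.Agent.N325.Mt.Fc

-- ▼ part N325/Mt/Fc2
section

/-!
# Row 325, Mt (helper90): a strongly connected alternating region around a blossom is a blossom
-/

set_option autoImplicit false
open Finset

namespace Crest.Agent.N325.Mt

variable {S T : Finset ℕ} {E : ℕ → ℕ → Prop} {μ : ℕ → ℕ} {O : ℕ → Prop}

/-- from an outer vertex outside `S` back to `S` -/
theorem exists_ear {d : ℕ → ℕ} (hμ : IsP (T \ S) E μ) (hO : ∀ a ∈ T \ S, O a ↔ ¬O (μ a))
    (h2 : ∀ x ∈ T \ S, O x → ∃ a, E x a ∧ (a ∈ S ∨ (a ∈ T \ S ∧ ¬O a ∧ d (μ a) < d x)))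
    {x : ℕ} (hx : x ∈ T \ S) (ox : O x) : ∃ P y, y ∈ S ∧ Ear E x P y ∧ (vs P).Nodup ∧
      ∀ e ∈ P, e.1 ∈ T \ S ∧ ¬O e.1 ∧ e.2 = μ e.1 ∧ d e.2 < d x := by
  induction hk : d x using Nat.strong_induction_on generalizing x with
  | _ k ih =>
  subst hk
  obtain ⟨a, e, ha | ⟨ha, oa, lt⟩⟩ := h2 x hx ox
  · exact ⟨[], a, ha, .nil e, List.nodup_nil, by simp⟩
  · have ob : O (μ a) := not_not.1 fun c => oa ((hO a ha).2 c)
    obtain ⟨P, y, hy, ear, nd, k⟩ := ih _ lt (hμ.1.mem ha) ob rfl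
    refine ⟨(a, μ a) :: P, y, hy, .cons e (hμ.adj ha) ear, ?_, fun f hf => ?_⟩
    · simp only [vs_cons, List.nodup_cons, List.mem_cons, not_or]
      refine ⟨⟨(hμ.2 a ha).symm, fun c => ?_⟩, fun c => ?_, nd⟩
      · obtain ⟨f, hf, c | c⟩ := mem_vs.1 c
        · have := (k f hf).2.2
          rw [← c] at this
          rw [this.1] at this
          exact lt_irrefl _ this.2
        · obtain ⟨k1, k2, k3, -⟩ := k f hf
          exact oa (by rw [c, k3]; exact not_not.1 fun q => k2 ((hO _ k1).2 q))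
      · obtain ⟨f, hf, c | c⟩ := mem_vs.1 c
        · exact (k f hf).2.1 (c ▸ ob)
        · exact lt_irrefl _ (c ▸ (k f hf).2.2.2)
    · rcases List.mem_cons.1 hf with rfl | hf
      · exact ⟨ha, oa, rfl, lt⟩
      · obtain ⟨k1, k2, k3, k4⟩ := k f hf
        exact ⟨k1, k2, k3, k4.trans lt⟩

/-- `S` is factor-critical, `μ` matches `T \ S` perfectly, inner with outer vertices; every outer
vertex is reached from `S` (rank `d₁`) and reaches `S` (rank `d₂`) along alternating arcs -/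
theorem FC.of_rank (hE : ∀ a b, E a b → E b a) {d₁ d₂ : ℕ → ℕ} (h : FC S E) (s : S ⊆ T)
    (hμ : IsP (T \ S) E μ) (hO : ∀ a ∈ T \ S, O a ↔ ¬O (μ a))
    (h1 : ∀ x ∈ T \ S, O x → ∃ z, E z (μ x) ∧ (z ∈ S ∨ (z ∈ T \ S ∧ O z ∧ d₁ z < d₁ x)))
    (h2 : ∀ x ∈ T \ S, O x → ∃ a, E x a ∧ (a ∈ S ∨ (a ∈ T \ S ∧ ¬O a ∧ d₂ (μ a) < d₂ x))) :
    FC T E := by
  classical
  induction hk : #(T \ S) using Nat.strong_induction_on generalizing S with
  | _ k ih =>
  subst hk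
  rcases (T \ S).eq_empty_or_nonempty with e | ⟨v, hv⟩
  · rwa [Subset.antisymm (sdiff_eq_empty_iff_subset.1 e) s]
  have ne : ((T \ S).filter O).Nonempty := by
    by_cases ov : O v
    · exact ⟨v, mem_filter.2 ⟨hv, ov⟩⟩
    · exact ⟨μ v, mem_filter.2 ⟨hμ.1.mem hv, not_not.1 fun c => ov ((hO v hv).2 c)⟩⟩
  obtain ⟨x, hx, mn⟩ := exists_min_image _ d₁ ne
  obtain ⟨hx, ox⟩ := mem_filter.1 hx
  obtain ⟨z, ez, hz⟩ := h1 x hx ox
  have hz : z ∈ S := hz.resolve_right fun c => (mn z (mem_filter.2 ⟨c.1, c.2.1⟩)).not_gt c.2.2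
  obtain ⟨P, y, hy, ear, nd, k⟩ := exists_ear hμ hO h2 hx ox
  have hm := hμ.1.mem hx
  have om : ¬O (μ x) := (hO x hx).1 ox
  have q : ∀ e ∈ (μ x, x) :: P, e.1 ∈ T \ S ∧ e.2 = μ e.1 := fun e he => by
    rcases List.mem_cons.1 he with rfl | he
    · exact ⟨hm, (hμ.1.inv hx).symm⟩
    · exact ⟨(k e he).1, (k e he).2.2.1⟩
  have q1 : ∀ w ∈ vs ((μ x, x) :: P), w ∈ T \ S ∧ μ w ∈ vs ((μ x, x) :: P) := fun w hw => by
    obtain ⟨e, he, c | c⟩ := mem_vs.1 hw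
    · exact ⟨c ▸ (q e he).1, mem_vs.2 ⟨e, he, .inr (by rw [c, (q e he).2])⟩⟩
    · exact ⟨by rw [c, (q e he).2]; exact hμ.1.mem (q e he).1,
        mem_vs.2 ⟨e, he, .inl (by rw [c, (q e he).2, hμ.1.inv (q e he).1])⟩⟩
  have nd' : (vs ((μ x, x) :: P)).Nodup := by
    simp only [vs_cons, List.nodup_cons, List.mem_cons, not_or]
    refine ⟨⟨hμ.2 x hx, fun c => ?_⟩, fun c => ?_, nd⟩
    · obtain ⟨f, hf, c | c⟩ := mem_vs.1 c
      · have := (k f hf).2.2
        rw [← c, hμ.1.inv hx] at this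
        exact lt_irrefl _ (this.1 ▸ this.2)
      · obtain ⟨k1, k2, k3, -⟩ := k f hf
        exact om (by rw [c, k3]; exact not_not.1 fun q => k2 ((hO _ k1).2 q))
    · obtain ⟨f, hf, c | c⟩ := mem_vs.1 c
      · exact (k f hf).2.1 (c ▸ ox)
      · exact lt_irrefl _ (c ▸ (k f hf).2.2.2)
  have f' := h.ear hE hz hy (.cons ez (hE _ _ (hμ.adj hx)) ear) nd'
    fun w hw => (mem_sdiff.1 (q1 w hw).1).2
  generalize hU : (vs ((μ x, x) :: P)).toFinset = U at f'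
  have u1 : ∀ w, w ∈ U ↔ w ∈ vs ((μ x, x) :: P) := fun w => by rw [← hU, List.mem_toFinset]
  have sb : T \ (S ∪ U) ⊆ T \ S := sdiff_subset_sdiff Subset.rfl subset_union_left
  have up : ∀ w ∈ T \ S, w ∈ S ∪ U ∨ w ∈ T \ (S ∪ U) := fun w hw =>
    (em _).imp_right fun c => mem_sdiff.2 ⟨(mem_sdiff.1 hw).1, c⟩
  refine ih _ (card_lt_card ⟨sb, fun c => ?_⟩) f' (union_subset s fun w hw =>
    (mem_sdiff.1 (q1 w ((u1 w).1 hw)).1).1) (hμ.sub sb fun w hw => ?_) (fun a ha => hO a (sb ha))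
    (fun w hw ow => ?_) (fun w hw ow => ?_) rfl
  · exact (mem_sdiff.1 (c hx)).2 (mem_union_right _ ((u1 x).2 (by simp)))
  · refine (up _ (hμ.1.mem (sb hw))).resolve_left fun c => ?_
    rcases mem_union.1 c with c | c
    · exact (mem_sdiff.1 (hμ.1.mem (sb hw))).2 c
    · have := (q1 _ ((u1 _).1 c)).2
      rw [hμ.1.inv (sb hw)] at this
      exact (mem_sdiff.1 hw).2 (mem_union_right _ ((u1 _).2 this))
  · obtain ⟨a, e, c | c⟩ := h1 w (sb hw) ow
    · exact ⟨a, e, .inl (mem_union_left _ c)⟩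
    · exact ⟨a, e, (up a c.1).imp_right fun c' => ⟨c', c.2⟩⟩
  · obtain ⟨a, e, c | c⟩ := h2 w (sb hw) ow
    · exact ⟨a, e, .inl (mem_union_left _ c)⟩
    · exact ⟨a, e, (up a c.1).imp_right fun c' => ⟨c', c.2⟩⟩

theorem exists_rank {r : ℕ → ℕ → Prop} {A : ℕ → Prop} :
    ∃ d : ℕ → ℕ, ∀ x, ¬A x → (∃ y, A y ∧ Relation.ReflTransGen r x y) →
      ∃ x', r x x' ∧ (A x' ∨ (d x' < d x ∧ ∃ y, A y ∧ Relation.ReflTransGen r x' y)) := by
  classical
  let L : ℕ → ℕ → Prop := fun n => Nat.rec A (fun _ p x => ∃ x', r x x' ∧ p x') n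
  have l1 : ∀ n x, L n x → ∃ y, A y ∧ Relation.ReflTransGen r x y := fun n => by
    induction n with
    | zero => exact fun x h => ⟨x, h, .refl⟩
    | succ n ih => exact fun x ⟨x', a, b⟩ => let ⟨y, c, e⟩ := ih x' b; ⟨y, c, .head a e⟩
  have l2 : ∀ x y, A y → Relation.ReflTransGen r x y → ∃ n, L n x := fun x y a h => by
    induction h using Relation.ReflTransGen.head_induction_on with
    | refl => exact ⟨0, a⟩
    | head e _ ih => exact let ⟨n, k⟩ := ih; ⟨n + 1, _, e, k⟩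
  refine ⟨fun x => sInf {n | L n x}, fun x na ⟨y, a, h⟩ => ?_⟩
  have sp : L (sInf {n | L n x}) x := Nat.sInf_mem (s := {n | L n x}) (l2 x y a h)
  rcases e : sInf {n | L n x} with _ | n
  · rw [e] at sp; exact absurd sp na
  · rw [e] at sp
    obtain ⟨x', a', b⟩ := sp
    refine ⟨x', a', .inr ⟨?_, l1 n x' b⟩⟩
    simp only [e]
    exact Nat.lt_succ_of_le (Nat.sInf_le (s := {n | L n x'}) b)

/-- the same with reachability along a relation `r` between outer vertices (`r x x'` = a free edge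
from `x` to the inner mate of `x'`) -/
theorem FC.of_reach (hE : ∀ a b, E a b → E b a) {r : ℕ → ℕ → Prop} (h : FC S E) (s : S ⊆ T)
    (hμ : IsP (T \ S) E μ) (hO : ∀ a ∈ T \ S, O a ↔ ¬O (μ a))
    (hr : ∀ x x', r x x' → x ∈ T ∧ x' ∈ T ∧ O x ∧ O x' ∧ E x (μ x') ∧ (x' ∈ S → μ x' ∈ S))
    (h1 : ∀ x ∈ T \ S, O x → ∃ z ∈ S, Relation.ReflTransGen r z x)
    (h2 : ∀ x ∈ T \ S, O x → ∃ y ∈ S, Relation.ReflTransGen r x y) : FC T E := by
  obtain ⟨d₁, k1⟩ := exists_rank (r := fun a b => r b a) (A := fun x => x ∈ S)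
  obtain ⟨d₂, k2⟩ := exists_rank (r := r) (A := fun x => x ∈ S)
  refine h.of_rank hE (d₁ := d₁) (d₂ := d₂) s hμ hO (fun x hx ox => ?_) fun x hx ox => ?_
  · obtain ⟨z, hz, p⟩ := h1 x hx ox
    obtain ⟨x', a, b⟩ := k1 x (mem_sdiff.1 hx).2 ⟨z, hz, Relation.reflTransGen_swap.2 p⟩
    obtain ⟨r1, -, r3, -, r5, -⟩ := hr x' x a
    refine ⟨x', r5, (em (x' ∈ S)).imp_right fun c => ⟨mem_sdiff.2 ⟨r1, c⟩, r3, ?_⟩⟩
    exact (b.resolve_left c).1
  · obtain ⟨x', a, b⟩ := k2 x (mem_sdiff.1 hx).2 (h2 x hx ox)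
    obtain ⟨-, r2, -, r4, r5, r6⟩ := hr x x' a
    by_cases c : x' ∈ S
    · exact ⟨μ x', r5, .inl (r6 c)⟩
    · have hx' := mem_sdiff.2 ⟨r2, c⟩
      refine ⟨μ x', r5, .inr ⟨hμ.1.mem hx', (hO x' hx').1 r4, ?_⟩⟩
      rw [hμ.1.inv hx']
      exact (b.resolve_left c).1

end Crest.Agent.N325.Mt
end

-- ▼ part N325/Mt/Fc3

/-!
# Row 325, Mt (helper90): stems, blossoms and augmenting paths from two stems, local rematching
-/

set_option autoImplicit false
open Finset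

namespace Crest.Agent.N325.Mt

variable {V S U : Finset ℕ} {E : ℕ → ℕ → Prop} {m m' : ℕ → ℕ} {z y u u' : ℕ}
  {P Q : List (ℕ × ℕ)}

/-- `Stm E z P u`: the path `z, a₁, b₁, …, a_k, b_k = u` for `P = [(a₁,b₁),…]` -/
inductive Stm (E : ℕ → ℕ → Prop) : ℕ → List (ℕ × ℕ) → ℕ → Prop
  | nil (z : ℕ) : Stm E z [] z
  | cons {z u a b : ℕ} {P : List (ℕ × ℕ)} : E z a → E a b → Stm E b P u → Stm E z ((a, b) :: P) u

theorem Stm.snoc {a b : ℕ} (h : Stm E z P u) (e : E u a) (e' : E a b) :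
    Stm E z (P ++ [(a, b)]) b := by
  induction h with
  | nil => exact .cons e e' (.nil _)
  | cons e1 e2 _ ih => exact .cons e1 e2 (ih e)

theorem Stm.ear (h : Stm E z P u) (k : Ear E u Q y) : Ear E z (P ++ Q) y := by
  induction h with
  | nil => exact k
  | cons e1 e2 _ ih => exact .cons e1 e2 (ih k)

theorem Ear.snoc {a b : ℕ} (h : Ear E z P a) (e : E a b) (e' : E b y) :
    Ear E z (P ++ [(a, b)]) y := by
  induction h with
  | nil k => exact .cons k e (.nil e')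
  | cons e1 e2 _ ih => exact .cons e1 e2 (ih e)

theorem Stm.rev (hE : ∀ a b, E a b → E b a) (h : Stm E y Q u') (e : E u u') :
    Ear E u (Q.reverse.map Prod.swap) y := by
  induction h with
  | nil => exact .nil e
  | cons e1 e2 _ ih =>
    rw [List.reverse_cons, List.map_append]
    exact (ih e).snoc (hE _ _ e2) (hE _ _ e1)

theorem vs_swap_perm (Q : List (ℕ × ℕ)) : (vs (Q.reverse.map Prod.swap)).Perm (vs Q) := by
  refine (vs_perm ((List.reverse_perm Q).map _)).trans ?_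
  induction Q with
  | nil => exact .refl _
  | cons e Q ih => exact (List.Perm.swap _ _ _).trans ((ih.cons _).cons _)

/-- two stems and an edge between their ends -/
theorem Stm.join (hE : ∀ a b, E a b → E b a) (h : Stm E z P u) (h' : Stm E y Q u') (e : E u u') :
    Ear E z (P ++ Q.reverse.map Prod.swap) y ∧
      (vs (P ++ Q.reverse.map Prod.swap)).Perm (vs P ++ vs Q) :=
  ⟨h.ear (h'.rev hE e), by rw [vs_append]; exact (vs_swap_perm Q).append_left _⟩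

/-- **a blossom**: two disjoint stems from the factor-critical set `S` (e.g. `{β}`) -/
theorem FC.stems (hE : ∀ a b, E a b → E b a) (f : FC S E) (hz : z ∈ S) (hy : y ∈ S)
    (h : Stm E z P u) (h' : Stm E y Q u') (e : E u u') (nd : (vs P ++ vs Q).Nodup)
    (d : ∀ v ∈ vs P ++ vs Q, v ∉ S) : FC (S ∪ (vs P ++ vs Q).toFinset) E := by
  obtain ⟨a, b⟩ := h.join hE h' e
  rw [← List.toFinset_eq_of_perm _ _ b]
  exact f.ear hE hz hy a (b.nodup_iff.2 nd) fun v k => d v (b.mem_iff.1 k)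

/-- the other edges of a path -/
def shf : ℕ → List (ℕ × ℕ) → ℕ → List (ℕ × ℕ)
  | z, [], y => [(z, y)]
  | z, e :: P, y => (z, e.1) :: shf e.2 P y

theorem vs_shf (z : ℕ) (P : List (ℕ × ℕ)) (y : ℕ) : vs (shf z P y) = z :: (vs P ++ [y]) := by
  induction P generalizing z with
  | nil => rfl
  | cons e P ih => simp [shf, ih]

theorem Ear.alt (h : Ear E z P y) (k : ∀ e ∈ P, m e.1 = e.2 ∧ e.1 ≠ e.2) (ey : m y = y) :
    Alt E m z (shf z P y) := by
  induction h with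
  | nil e => exact .last e ey
  | @cons z y a b P e1 _ _ ih =>
    obtain ⟨k1, k2⟩ := k (a, b) List.mem_cons_self
    simp only at k1 k2
    exact .cons e1 (k1 ▸ k2.symm) (k1 ▸ ih (fun e c => k e (List.mem_cons_of_mem _ c)) ey)

theorem ne_of_nodup_vs (nd : (vs P).Nodup) : ∀ e ∈ P, e.1 ≠ e.2 := fun _ he =>
  (flp_of_mem (m := id) nd he).2.2

theorem Ear.aug (h : Ear E z P y) (k : ∀ e ∈ P, m e.1 = e.2) (ez : m z = z) (ey : m y = y)
    (nd : (z :: y :: vs P).Nodup) (s : ∀ v ∈ z :: y :: vs P, v ∈ V) : Aug V E m z (shf z P y) := by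
  have p : (vs (shf z P y)).Perm (z :: y :: vs P) := by
    rw [vs_shf]; exact (List.perm_append_singleton _ _).cons _
  exact ⟨ez, h.alt (fun e he => ⟨k e he, ne_of_nodup_vs nd.of_cons.of_cons e he⟩) ey,
    p.nodup_iff.2 nd, fun v c => s v (p.mem_iff.1 c)⟩

theorem Imp.not_max (hE : ∀ a b, E a b → E b a) (hm : IsM V E m) (h : Imp V E m P) :
    ¬Max V E m := fun k => by
  have := k _ (h.1.isM hE hm)
  have := h.ex_flp
  omega

/-- **two disjoint stems from exposed vertices give an augmenting path** -/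
theorem Stm.imp (hE : ∀ a b, E a b → E b a) (hm : IsM V E m) (h : Stm E z P u) (h' : Stm E y Q u')
    (e : E u u') (k : ∀ e ∈ P ++ Q, m e.1 = e.2) (ez : m z = z) (ey : m y = y)
    (nd : (z :: y :: (vs P ++ vs Q)).Nodup) (s : ∀ v ∈ z :: y :: (vs P ++ vs Q), v ∈ V) :
    Imp V E m (shf z (P ++ Q.reverse.map Prod.swap) y) := by
  obtain ⟨a, b⟩ := h.join hE h' e
  have p := (b.cons y).cons z
  refine (a.aug (fun f hf => ?_) ez ey (p.nodup_iff.2 nd) fun v c => s v (p.mem_iff.1 c)).imp hm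
  rcases List.mem_append.1 hf with hf | hf
  · exact k f (List.mem_append_left _ hf)
  · obtain ⟨x, hx, rfl⟩ := List.mem_map.1 hf
    have hx := List.mem_reverse.1 hx
    have := k x (List.mem_append_right _ hx)
    simp only [Prod.fst_swap, Prod.snd_swap, ← this]
    exact hm.inv (s _ (by simp [mem_vs.2 ⟨x, hx, .inl rfl⟩]))

/-- rematching an `m`-closed set perfectly -/
theorem IsM.rematch (hm : IsM V E m) (s : U ⊆ V) (c : ∀ v ∈ U, m v ∈ U) (p : IsP U E m')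
    (k : ∀ v ∈ V, v ∉ U → m' v = m v) : IsM V E m' ∧ ex V m' + ex U m = ex V m := by
  refine ⟨fun v hv => ?_, ?_⟩
  · by_cases h : v ∈ U
    · exact ⟨s (p.1.mem h), p.1.inv h, p.1.adj h⟩
    · have h' : m v ∉ U := fun q => h (hm.inv hv ▸ c _ q)
      rw [k v hv h, k _ (hm.mem hv) h']
      exact hm v hv
  · rw [ex, ex, ex, ← card_union_of_disjoint]
    · congr 1
      ext v
      simp only [mem_union, mem_exs]
      constructor
      · rintro (⟨a, b⟩ | ⟨a, b⟩)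
        · exact ⟨a, k v a (fun q => p.2 v q b) ▸ b⟩
        · exact ⟨s a, b⟩
      · rintro ⟨a, b⟩
        by_cases h : v ∈ U
        exacts [.inr ⟨h, b⟩, .inl ⟨a, (k v a h).trans b⟩]
    · exact disjoint_left.2 fun v a b => p.2 v (mem_exs.1 b).1 (mem_exs.1 a).2

/-- classes `K x ∋ x` that are perfectly matched except for `x`, the `x` matched by the pairs `Q` -/
theorem isP_of_ports (hE : ∀ a b, E a b → E b a) {K : ℕ → Finset ℕ} (hU : ∀ v, v ∈ U ↔ ∃ x ∈ vs Q, v ∈ K x)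
    (hx : ∀ x ∈ vs Q, x ∈ K x ∧ IsP ((K x).erase x) E m')
    (hQ : ∀ e ∈ Q, m' e.1 = e.2 ∧ m' e.2 = e.1 ∧ e.1 ≠ e.2 ∧ E e.1 e.2) : IsP U E m' := by
  have key : ∀ v ∈ U, m' v ∈ U ∧ m' (m' v) = v ∧ m' v ≠ v ∧ E v (m' v) := fun v hv => by
    obtain ⟨x, a, b⟩ := (hU v).1 hv
    by_cases c : v = x
    · subst c
      obtain ⟨e, he, rfl | rfl⟩ := mem_vs.1 a
      · obtain ⟨q1, q2, q3, q4⟩ := hQ e he
        have := mem_vs.2 ⟨e, he, .inr rfl⟩
        rw [q1, q2]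
        exact ⟨(hU _).2 ⟨_, this, (hx _ this).1⟩, rfl, q3.symm, q4⟩
      · obtain ⟨q1, q2, q3, q4⟩ := hQ e he
        have := mem_vs.2 ⟨e, he, .inl rfl⟩
        rw [q2, q1]
        exact ⟨(hU _).2 ⟨_, this, (hx _ this).1⟩, rfl, q3, hE _ _ q4⟩
    · have hv' := mem_erase.2 ⟨c, b⟩
      have p := (hx x a).2
      exact ⟨(hU _).2 ⟨x, a, mem_of_mem_erase (p.1.mem hv')⟩, p.1.inv hv', p.2 v hv', p.adj hv'⟩
  exact ⟨fun v hv => ⟨(key v hv).1, (key v hv).2.1, fun _ => (key v hv).2.2.2⟩,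
    fun v hv => (key v hv).2.2.1⟩

theorem IsP.even_card (h : IsP S E m) : Even #S := by
  have := sum_involution (s := S) (f := fun _ => (1 : ZMod 2)) (fun v _ => m v)
    (fun _ _ => by decide) (fun v hv _ => h.2 v hv) (fun _ => h.1.mem) fun _ => h.1.inv
  simp only [sum_const, nsmul_eq_mul, mul_one] at this
  exact (ZMod.natCast_eq_zero_iff_even).1 this

end Crest.Agent.N325.Mt
private theorem rz_cafccd02d6 : type_of% @_root_.Crest.Agent.N325.Mt.shf.eq_def := @_root_.Crest.Agent.N325.Mt.shf.eq_def -- L66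
private theorem rz_200d746a23 : type_of% @_root_.Crest.Agent.N325.Mt.shf.eq_1 := @_root_.Crest.Agent.N325.Mt.shf.eq_1 -- L66
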